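import Mathlib.Order.Interval.Finset.Nat
import Mathlib.Algebra.Order.BigOperators.Group.Finset
import Mathlib.Order.Monotone.Basic
import Mathlib.Tactic.Linarith
import Mathlib.Tactic.Ring
import Vale.Agent.P106.U.H823.PathP

/-!
# P106 / U / H715 : the levels of mixed regime, over all places (row [REGP], producer side of 336's `regS`, `reg`; helper715)

Blocks. `G 0, G 1, ..` : strictly increasing functions of the place `b` (`G (a + 1) b = b + R_b a`, `G a b = b + R_b (a - 1)`),
`F 0 = 0 ≤ F 1 ≤ ..` (`F (a + 1)` = own slope at the `a`-step of the level `a`).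
`Hit G F B β e a b` : the level `a` is not of pure kind at the places `b` (first cap of the window) and `b + e` (cap).

* `cnt_add` : `#{b < N : g b < y + z} ≤ #{b < N : g b < y} + z` for `g` strictly increasing.
* **`hit_sum`** : `∑_{a < A} #{b < N : Hit a b} ≤ 2 F A + A (2 B + β + e + 1)` (the sum telescopes);  `HitE`, **`hitE_sum`** : the same for second paths.
* `pure` : a level which is not hit is of pure kind: ALL its unit steps are in the kappa regime, up to the later cap `b + e + β`, or
  ALL are in the deep phi regime, `2 B` blocks deep, already for the line at the place `b`.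
-/

set_option autoImplicit false

namespace Vale.Agent.P106.U.H715.RegP

open Finset

/-- number of the places below `N` with `g b < y` -/
def cnt (g : ℕ → ℕ) (N y : ℕ) : ℕ := ((range N).filter fun b => g b < y).card

theorem card_le_of_inj {g : ℕ → ℕ} (hg : StrictMono g) (S : Finset ℕ) (x y : ℕ) (h : ∀ b ∈ S, x ≤ g b ∧ g b < y) :
    S.card ≤ y - x := by
  have h1 : (S.image g) ⊆ Ico x y := by
    intro z hz
    obtain ⟨b, hb, rfl⟩ := Finset.mem_image.1 hz
    exact Finset.mem_Ico.2 (h b hb)
  have h2 := Finset.card_le_card h1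
  rw [Nat.card_Ico, Finset.card_image_of_injective _ hg.injective] at h2
  exact h2

/-- the number grows at most by one per unit -/
theorem cnt_add {g : ℕ → ℕ} (hg : StrictMono g) (N y z : ℕ) : cnt g N (y + z) ≤ cnt g N y + z := by
  have h1 : ((range N).filter fun b => g b < y + z) ⊆
      ((range N).filter fun b => g b < y) ∪ ((range N).filter fun b => y ≤ g b ∧ g b < y + z) := by
    intro b hb
    simp only [Finset.mem_filter, Finset.mem_union, Finset.mem_range] at hb ⊢
    rcases Nat.lt_or_ge (g b) y with h | h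
    · exact Or.inl ⟨hb.1, h⟩
    · exact Or.inr ⟨hb.1, h, hb.2⟩
  have h2 := (Finset.card_le_card h1).trans (Finset.card_union_le _ _)
  have h3 := card_le_of_inj hg ((range N).filter fun b => y ≤ g b ∧ g b < y + z) y (y + z)
    (fun b hb => (Finset.mem_filter.1 hb).2)
  have h4 : y + z - y = z := by omega
  rw [h4] at h3
  unfold cnt
  omega

/-- **the level `a` is not of pure kind** -/
def Hit (G : ℕ → ℕ → ℕ) (F : ℕ → ℕ) (B β e a b : ℕ) : Prop := G a b < F (a + 1) + 2 * B ∧ F a < G (a + 1) (b + e) + β

instance (G : ℕ → ℕ → ℕ) (F : ℕ → ℕ) (B β e a b : ℕ) : Decidable (Hit G F B β e a b) := by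
  unfold Hit
  infer_instance

/-- **one level** -/
theorem hit_level {G : ℕ → ℕ → ℕ} {F : ℕ → ℕ} (hG : ∀ a, StrictMono (G a)) (hGa : ∀ a b, G a b ≤ G (a + 1) b)
    (hF : Monotone F) (B β e N a : ℕ) :
    ((range N).filter fun b => Hit G F B β e a b).card + cnt (G (a + 1)) N (F (a + 1)) ≤
      cnt (G a) N (F a) + 2 * (F (a + 1) - F a) + (2 * B + β + e + 1) := by
  set H := (range N).filter fun b => Hit G F B β e a b with hH
  set C := (range N).filter fun b => G (a + 1) (b + e) + β ≤ F a with hC
  set U := (range N).filter fun b => G a b < F (a + 1) + 2 * B + 1 with hU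
  have hFa := hF (Nat.le_succ a)
  simp only [Nat.succ_eq_add_one] at hFa
  have hdis : Disjoint H C := by
    rw [Finset.disjoint_left]
    intro b h1 h2
    have h3 := (Finset.mem_filter.1 h1).2
    have h4 := (Finset.mem_filter.1 h2).2
    unfold Hit at h3
    omega
  have hsub : H ∪ C ⊆ U := by
    intro b hb
    rcases Finset.mem_union.1 hb with h | h
    · obtain ⟨h1, h2⟩ := Finset.mem_filter.1 h
      unfold Hit at h2
      exact Finset.mem_filter.2 ⟨h1, by omega⟩
    · obtain ⟨h1, h2⟩ := Finset.mem_filter.1 h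
      have h3 := hGa a b
      have h4 := (hG (a + 1)).monotone (Nat.le_add_right b e)
      exact Finset.mem_filter.2 ⟨h1, by omega⟩
  have e1 : H.card + C.card ≤ U.card := by
    rw [← Finset.card_union_of_disjoint hdis]
    exact Finset.card_le_card hsub
  have e2 : U.card ≤ cnt (G a) N (F a) + (F (a + 1) - F a + 2 * B + 1) := by
    have h1 := cnt_add (hG a) N (F a) (F (a + 1) - F a + 2 * B + 1)
    have h2 : F a + (F (a + 1) - F a + 2 * B + 1) = F (a + 1) + 2 * B + 1 := by omega
    rw [h2] at h1
    exact h1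
  have e3 : cnt (G (a + 1)) N (F (a + 1)) ≤ e + C.card + (F (a + 1) - F a + β) := by
    have h1 : ((range N).filter fun b => G (a + 1) b < F (a + 1)) ⊆
        (range e ∪ C.image (· + e)) ∪ ((range N).filter fun b => F a + 1 - β ≤ G (a + 1) b ∧ G (a + 1) b < F (a + 1)) := by
      intro b hb
      simp only [Finset.mem_filter, Finset.mem_range] at hb
      simp only [Finset.mem_union, Finset.mem_range, Finset.mem_image, Finset.mem_filter]
      rcases Nat.lt_or_ge b e with h | h
      · exact Or.inl (Or.inl h)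
      rcases Nat.lt_or_ge (F a) (G (a + 1) b + β) with h' | h'
      · exact Or.inr ⟨hb.1, by omega, hb.2⟩
      · refine Or.inl (Or.inr ⟨b - e, ?_, by omega⟩)
        rw [hC, Finset.mem_filter, Finset.mem_range, Nat.sub_add_cancel h]
        exact ⟨by omega, h'⟩
    have h2 := Finset.card_le_card h1
    have h3 := Finset.card_union_le (range e ∪ C.image (· + e))
      ((range N).filter fun b => F a + 1 - β ≤ G (a + 1) b ∧ G (a + 1) b < F (a + 1))
    have h4 := Finset.card_union_le (range e) (C.image (· + e))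
    have h5 : (C.image (· + e)).card ≤ C.card := Finset.card_image_le
    have h6 := card_le_of_inj (hG (a + 1))
      ((range N).filter fun b => F a + 1 - β ≤ G (a + 1) b ∧ G (a + 1) b < F (a + 1)) (F a + 1 - β) (F (a + 1))
      (fun b hb => (Finset.mem_filter.1 hb).2)
    rw [Finset.card_range] at h4
    unfold cnt
    omega
  omega

/-- **all levels, all places** -/
theorem hit_sum {G : ℕ → ℕ → ℕ} {F : ℕ → ℕ} (hG : ∀ a, StrictMono (G a)) (hGa : ∀ a b, G a b ≤ G (a + 1) b)
    (hF : Monotone F) (hF0 : F 0 = 0) (B β e N A : ℕ) :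
    ∑ a ∈ range A, ((range N).filter fun b => Hit G F B β e a b).card ≤ 2 * F A + A * (2 * B + β + e + 1) := by
  have key : ∑ a ∈ range A, ((range N).filter fun b => Hit G F B β e a b).card + cnt (G A) N (F A) ≤
      2 * F A + A * (2 * B + β + e + 1) := by
    induction A with
    | zero =>
      have : cnt (G 0) N (F 0) = 0 := by
        unfold cnt
        rw [Finset.card_eq_zero, Finset.filter_eq_empty_iff]
        intro b _
        rw [hF0]
        omega
      rw [Finset.sum_range_zero, this]
      omega
    | succ A ih =>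
      have h1 := hit_level hG hGa hF B β e N A
      have h2 := hF (Nat.le_succ A)
      simp only [Nat.succ_eq_add_one] at h2
      have h3 : (A + 1) * (2 * B + β + e + 1) = A * (2 * B + β + e + 1) + (2 * B + β + e + 1) := Nat.succ_mul _ _
      rw [Finset.sum_range_succ, h3]
      omega
  omega

/-- the number of the hit levels, summed over the places -/
theorem hit_sum' {G : ℕ → ℕ → ℕ} {F : ℕ → ℕ} (hG : ∀ a, StrictMono (G a)) (hGa : ∀ a b, G a b ≤ G (a + 1) b)
    (hF : Monotone F) (hF0 : F 0 = 0) (B β e N A : ℕ) :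
    ∑ b ∈ range N, ((range A).filter fun a => Hit G F B β e a b).card ≤ 2 * F A + A * (2 * B + β + e + 1) := by
  refine le_trans (le_of_eq ?_) (hit_sum hG hGa hF hF0 B β e N A)
  simp only [Finset.card_eq_sum_ones, Finset.sum_filter]
  exact Finset.sum_comm

/-! ### second paths -/

/-- `G` of a family of second paths `R b` (place `b`), shift `d` -/
def Gf (R : ℕ → ℕ → ℕ) (d : ℕ) : ℕ → ℕ → ℕ
  | 0, b => b + d
  | a + 1, b => b + d + R (b + d) a

/-- `F` shifted -/
def Ff (F : ℕ → ℕ) : ℕ → ℕ
  | 0 => 0
  | a + 1 => F a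

section fam

variable {R : ℕ → ℕ → ℕ} {F : ℕ → ℕ}

theorem Gf_strict (hR : ∀ a, Monotone fun b => R b a) (d a : ℕ) : StrictMono (Gf R d a) := by
  intro b b' h
  cases a with
  | zero => show b + d < b' + d; omega
  | succ a =>
    have h1 : R (b + d) a ≤ R (b' + d) a := hR a (by omega)
    show b + d + R (b + d) a < b' + d + R (b' + d) a
    omega

theorem Gf_le (hR : ∀ b, Monotone (R b)) (d a b : ℕ) : Gf R d a b ≤ Gf R d (a + 1) b := by
  cases a with
  | zero => exact Nat.le_add_right _ _
  | succ a =>
    have h1 : R (b + d) a ≤ R (b + d) (a + 1) := hR _ (Nat.le_succ a)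
    show b + d + R (b + d) a ≤ b + d + R (b + d) (a + 1)
    omega

theorem Ff_mono (hF : Monotone F) : Monotone (Ff F) := by
  refine monotone_nat_of_le_succ fun a => ?_
  cases a with
  | zero => exact Nat.zero_le _
  | succ a => exact hF (Nat.le_succ a)

/-- **the level `a` is hit** : line `R0` at the first cap `b0` of the window, line `R1` at the cap `b1`, later cap `b1 + β` -/
def HitE (R0 R1 F : ℕ → ℕ) (B β b0 b1 a : ℕ) : Prop :=
  b0 + (if a = 0 then 0 else R0 (a - 1)) < F a + 2 * B ∧ (if a = 0 then 0 else F (a - 1)) < b1 + R1 a + β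

instance (R0 R1 F : ℕ → ℕ) (B β b0 b1 a : ℕ) : Decidable (HitE R0 R1 F B β b0 b1 a) := by
  unfold HitE
  infer_instance

theorem hitE_iff (B β b e d a : ℕ) :
    HitE (R (b + d)) (R (b + d + e)) F B β (b + d) (b + d + e) a ↔ Hit (Gf R d) (Ff F) B β e a b := by
  unfold HitE Hit
  cases a with
  | zero =>
    simp only [if_true, Nat.add_zero, Gf, Ff]
    rw [show b + d + e = b + e + d by omega]
  | succ a =>
    simp only [Nat.succ_ne_zero, if_false, Nat.add_sub_cancel, Gf, Ff]
    rw [show b + d + e = b + e + d by omega]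

/-- the conditions depend on the levels `a - 1`, `a` only -/
theorem HitE.congr {R0 R1 F R0' R1' F' : ℕ → ℕ} {B β b0 b1 a : ℕ} (h0 : ∀ x < a, R0 x = R0' x) (h1 : R1 a = R1' a)
    (hF : ∀ x ≤ a, F x = F' x) : HitE R0 R1 F B β b0 b1 a ↔ HitE R0' R1' F' B β b0 b1 a := by
  unfold HitE
  rw [h1, hF a le_rfl]
  rcases Nat.eq_zero_or_pos a with h | h
  · rw [if_pos h, if_pos h, if_pos h, if_pos h]
  · rw [if_neg (by omega), if_neg (by omega), if_neg (by omega), if_neg (by omega), h0 (a - 1) (by omega),
      hF (a - 1) (by omega)]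

/-- **[REGP]** : the number of the hit levels, summed over the places: window of the first cap `b + d`, cap `b + d + e` -/
theorem hitE_sum (hR : ∀ a, Monotone fun b => R b a) (hRa : ∀ b, Monotone (R b)) (hF : Monotone F) (B β e d N A : ℕ)
    (hA : 1 ≤ A) : ∑ b ∈ range N, ((range A).filter fun a =>
      HitE (R (b + d)) (R (b + d + e)) F B β (b + d) (b + d + e) a).card ≤
      2 * F (A - 1) + A * (2 * B + β + e + 1) := by
  have h1 := hit_sum' (Gf_strict hR d) (Gf_le hRa d) (Ff_mono hF) rfl B β e N A
  have h2 : Ff F A = F (A - 1) := by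
    obtain ⟨A, rfl⟩ : ∃ x, A = x + 1 := ⟨A - 1, by omega⟩
    rfl
  rw [h2] at h1
  refine le_trans (le_of_eq ?_) h1
  refine Finset.sum_congr rfl fun b _ => ?_
  congr 1
  exact Finset.filter_congr fun a _ => hitE_iff B β b e d a

end fam

/-! ### unit steps -/

open Vale.Agent.P106.U.H823.PathP in
/-- **a level which is not hit is of pure kind** : `L` the path of the cap `b1`, `R0` the line at the place `b0` -/
theorem pure {R0 R1 : ℕ → ℕ} (L : Lv) {B β b0 b1 a : ℕ} (hL : L.R a = R1 a) (h : ¬ HitE R0 R1 L.F B β b0 b1 a) :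
    (∀ j, L.lev j = a → b1 + β + L.k j ≤ L.f j) ∨
    (∀ j, L.lev j = a → L.f j + 2 * B ≤ b0 + (if a = 0 then 0 else R0 (a - 1))) := by
  unfold HitE at h
  rw [not_and_or, not_lt, not_lt] at h
  rcases h with h | h
  · refine Or.inr fun j hj => ?_
    have h1 := L.f_le j
    rw [hj] at h1
    omega
  · refine Or.inl fun j hj => ?_
    have h1 := L.le_f j
    have h2 := L.k_le j
    rw [hj] at h1 h2
    rw [hL] at h2
    unfold Lv.Fm at h1
    omega

end Vale.Agent.P106.U.H715.RegP
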