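import Vale.Agent.P106.U.H823.HasN
import Vale.Agent.P106.U.S3.F2
import Vale.Agent.P106.U.H715.RegP

/-!
# P106 / U / H715 : the fields `regS`, `reg` of `S3.F2` over 823's `Has` (helper715)

* `k0 D R0 i` : line, in blocks, of the numbers of `mt0` : the second path `R0` at the first cap of the window, at the level before;
  `k0_mono`, `k0_le` (helper465's `hk`, `hl` of `pfd`).
* **`reg_all`** : at every index of a level which is not hit: kappa regime up to the later cap `bV`, or deep phi regime `2 m B` deep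
  at the cap `m b1` already for the precision `r0 + m k0`;  `regS`, `reg` : the fields.
-/

set_option autoImplicit false

namespace Vale.Agent.P106.U.H715.RegR

open Finset Vale.Agent.P127 Vale.Agent.P127.Stk Vale.Agent.P127.U
open Vale.Agent.P106.U Vale.Agent.P106.U.H823.NumW Vale.Agent.P106.U.H823.PathNum Vale.Agent.P106.U.H823.PathP
open RegP

/-- line of the first cap, at the level before -/
def k0 (D : PN) (R0 : ℕ → ℕ) (i : ℕ) : ℕ := if D.li i = 0 then 0 else R0 (D.li i - 1)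

theorem k0_mono (D : PN) {R0 : ℕ → ℕ} (h : Monotone R0) : Monotone (k0 D R0) := by
  intro i j hij
  have h1 := D.li_mono hij
  unfold k0
  split_ifs with h2 h3 h3
  · exact le_rfl
  · exact Nat.zero_le _
  · omega
  · exact h (by omega)

theorem k0_le (D : PN) {R0 : ℕ → ℕ} (h : ∀ i, 1 ≤ D.li i → R0 (D.li i - 1) ≤ D.R (D.li i - 1)) (i : ℕ) :
    k0 D R0 i ≤ D.L.k (D.ix i) := by
  have h1 := D.L.le_k (D.ix i)
  unfold Lv.Rm at h1
  unfold k0
  split_ifs with h2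
  · exact Nat.zero_le _
  · have h3 : D.L.lev (D.ix i) = D.li i := rfl
    rw [h3, if_neg h2] at h1
    exact (h i (by omega)).trans h1

section has

variable {Ω : Type} [Fintype Ω] {D : PN} {τ υ : Type} {R : S3.Run Ω τ υ} {p : S3.Run.Num} (H : Has D R p)

include H

theorem lv_eq (i : ℕ) : S3.lv R i = D.li i := by
  unfold S3.lv
  rw [H.a, H.m]
  exact Nat.mul_div_cancel_left _ D.m1

/-- **every index of a level which is not hit** -/
theorem reg_all {R0 R1 : ℕ → ℕ} {B β b0 k : ℕ} (hb : b0 ≤ R.b1) (hR : D.R (S3.lv R k) = R1 (S3.lv R k))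
    (h : ¬ HitE R0 R1 (fun a => D.F a + D.o) B β b0 R.b1 (S3.lv R k)) :
    R.m * (R.b1 + β) + R.C.rk k ≤ R.C.rf k ∨
      R.C.rf k + 2 * (R.m * B) ≤ R.m * R.b1 + (R.r0 + R.m * k0 D R0 k) := by
  have e0 : D.L.lev (D.ix k) = S3.lv R k := (lv_eq H k).symm
  have hrf : R.C.rf k = R.r0 + R.m * D.L.f (D.ix k) := by
    rw [H.rf, H.r0, H.m]
    rfl
  have hrk : R.C.rk k = R.r0 + R.m * D.L.k (D.ix k) := by
    rw [H.rk, H.r0, H.m]
    rfl
  rcases RegP.pure (R0 := R0) (R1 := R1) D.L (B := B) (β := β) (b0 := b0) (b1 := R.b1) (a := S3.lv R k) hR h with h1 | h1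
  · left
    have h2 := Nat.mul_le_mul_left R.m (h1 _ e0)
    rw [hrf, hrk]
    rw [Nat.mul_add] at h2
    omega
  · right
    have h2 := h1 _ e0
    have h3 : (if S3.lv R k = 0 then 0 else R0 (S3.lv R k - 1)) = k0 D R0 k := by
      unfold k0
      rw [lv_eq H]
    rw [h3] at h2
    have h4 : R.m * (D.L.f (D.ix k) + 2 * B) ≤ R.m * (R.b1 + k0 D R0 k) := Nat.mul_le_mul_left R.m (by omega)
    rw [hrf]
    rw [Nat.mul_add, Nat.mul_add] at h4
    have h5 : R.m * (2 * B) = 2 * (R.m * B) := by ring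
    rw [h5] at h4
    omega

/-- **the two fields** `regS`, `reg` (336's form): `Xs` contains the hit levels -/
theorem fields {R0 R1 : ℕ → ℕ} {B βS βV b0 : ℕ} {Vs Xs : Finset ℕ} (hb : b0 ≤ R.b1) (hβ : βS ≤ βV)
    (hR : ∀ k, 1 ≤ k → k ≤ R.n → D.R (S3.lv R k) = R1 (S3.lv R k))
    (hk : ∀ k, k0 D R0 k ≤ D.L.k (D.ix k))
    (h : ∀ k, 1 ≤ k → k ≤ R.n → HitE R0 R1 (fun a => D.F a + D.o) B βV b0 R.b1 (S3.lv R k) → S3.lv R k ∈ Xs) :
    (∀ k, 1 ≤ k → k ≤ R.n → S3.lv R k ∉ Vs → S3.lv R k ∉ Xs →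
      R.m * (R.b1 + βS) + R.C.rk k ≤ R.C.rf k ∨ R.C.rf k + 2 * (R.m * B) ≤ R.m * R.b1 + R.C.rk k) ∧
    (∀ k, 1 ≤ k → k ≤ R.n → S3.lv R k ∈ Vs → S3.lv R k ∉ Xs →
      R.m * (R.b1 + βV) + R.C.rk k ≤ R.C.rf k ∨ R.C.rf k + 2 * (R.m * B) ≤ R.m * R.b1 + (R.r0 + R.m * k0 D R0 k)) := by
  have hrk : ∀ k, R.r0 + R.m * k0 D R0 k ≤ R.C.rk k := by
    intro k
    have e : R.C.rk k = R.r0 + R.m * D.L.k (D.ix k) := by
      rw [H.rk, H.r0, H.m]
      rfl
    rw [e]
    exact Nat.add_le_add_left (Nat.mul_le_mul_left _ (hk k)) _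
  refine ⟨fun k k1 k2 _ k4 => ?_, fun k k1 k2 _ k4 => reg_all H hb (hR k k1 k2) fun h1 => k4 (h k k1 k2 h1)⟩
  rcases reg_all H hb (hR k k1 k2) (fun h1 => k4 (h k k1 k2 h1)) with h1 | h1
  · left
    have h2 : R.m * (R.b1 + βS) ≤ R.m * (R.b1 + βV) := Nat.mul_le_mul_left _ (by omega)
    omega
  · right
    have h2 := hrk k
    omega

end has

end Vale.Agent.P106.U.H715.RegR
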