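import Vale.Agent.P106.U.H565.PF2
import Vale.Agent.P106.U.H339.WordX
import Vale.Agent.P106.U.H715.RegR

/-!
# P106 / U / H715 : the cost of the levels of mixed regime over helper565's run (row [REGP]; helper715)

Word value `e` (second paths of the window, `+ (A - a)`, as in 465's `Zr`, 480's `ZwC`), `A = ha`.

* `RCe A e k a` : second path at the cap `k` of the window;  `rce` : `= RT (b0 + k s) a` on `Zr = e`.
* `hits` : the hit levels;  **`psR`** : the cost `nB #hits / bnd`;  **`psR_avg`** : `∑ ∑ Q1.ex psR ≤ nB Tc`.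
* **`reg_num`** : `psR ≤ C` gives `m #hits ≤ h / (4 B)` for `h ≥ h0`.
* **`reg_fields`** : 336's fields `regS`, `reg` for a run with 823's `Has`.
-/

set_option autoImplicit false

namespace Vale.Agent.P106.U.H715.RegC

open Finset Vale.Agent.P127 Vale.Agent.P127.Stk Vale.Agent.P127.U Vale.Agent.P106.W
open Vale.Agent.P106.U Vale.Agent.P106.U.H449 Vale.Agent.P106.U.H565
open Vale.Agent.P106.U.H823.NumG Vale.Agent.P106.U.H823.NumW Vale.Agent.P106.U.H823.PathNum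
open RegP RegR

/-- second path at the cap `k` of the window, from the word value -/
def RCe (A : ℕ) (e : ℕ → ℕ → ℕ) (k a : ℕ) : ℕ := e k (min a A) - (A - min a A)

theorem RCe_of_le {A : ℕ} {e : ℕ → ℕ → ℕ} {k a : ℕ} (ha : a ≤ A) : RCe A e k a = e k a - (A - a) := by
  unfold RCe
  rw [min_eq_left ha]

/-- the hit levels: first cap `b0`, cap `b0 + kk s`, later cap `βV` blocks further -/
def hits (F : ℕ → ℕ) (A B βV s b0 kk : ℕ) (e : ℕ → ℕ → ℕ) : Finset ℕ :=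
  (range A).filter fun a => HitE (RCe A e 0) (RCe A e kk) F B βV b0 (b0 + kk * s) a

section c0

variable {Ω : Type} [Fintype Ω] {c : C0 Ω} {hm : 3 ≤ c.I.m} {cc : ℝ} {Q : Law Ω} {E : List (Lt 2)} {x : ℝ}

/-- the second path from the word -/
theorem rce {s b0 kk : ℕ} {e : ℕ → ℕ → ℕ} {ω : Ω} (he : c.Zr hm cc s Q b0 kk ω = e) {k : ℕ} (hk : k ≤ kk) (a : ℕ) :
    RCe c.I.ha e k a = c.RT hm cc Q (b0 + k * s) (min a c.I.ha) ω := by
  have h1 : e k (min a c.I.ha) = c.wRT hm cc Q (b0 + k * s) ω (min a c.I.ha) := by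
    rw [← he]
    exact H339W.jws_apply ω hk (min_le_right _ _)
  unfold RCe
  rw [h1]
  unfold C0.wRT
  omega

/-- the second path is monotone in the level -/
theorem rt_mono_a (cn : Cn c.rule c.P Q c.I.pm.n E x) (in0 : ∀ ω, c.d0.In (c.tW ω) (c.κ ω)) (hc : 0 ≤ cc) (b : ℕ) (ω : Ω) :
    Monotone fun a => c.RT hm cc Q b (min a c.I.ha) ω := by
  intro a a' h
  have h1 := (C0.w2_rt (hm := hm) cn in0 hc b ω).mono (min_le_min_right c.I.ha h)
  rw [ext_eq (min_le_right _ _), ext_eq (min_le_right _ _)] at h1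
  exact h1

/-- `F` of the hit levels -/
noncomputable def Fo (c : C0 Ω) (E : List (Lt 2)) (a : ℕ) : ℕ := Rw c.I.pm.n E 0 a + 2

theorem Fo_mono (cn : Cn c.rule c.P Q c.I.pm.n E x) : Monotone (Fo c E) := fun _ _ h =>
  Nat.add_le_add_right (cn.Rw_mono 0 h) _

theorem Fo_le (cn : Cn c.rule c.P Q c.I.pm.n E x) (a : ℕ) : Fo c E a ≤ c.I.pm.n + 2 := by
  have h1 := cn.lv_sum (i := H449.tw c.I.pm.n E a) (Cn.tw_le a)
  have h2 := Cn.tw_le (n := c.I.pm.n) (E := E) a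
  unfold Fo
  show lv c.I.pm.n E (some 0) (H449.tw c.I.pm.n E a) + 2 ≤ _
  omega

/-- the bound of the sums -/
noncomputable def bnd (c : C0 Ω) (B βV s Tc : ℕ) : ℕ := 2 * (c.I.pm.n + 2) + c.I.ha * (2 * B + βV + Tc * s + 1)

/-- **pointwise** : the hit levels, summed over the places -/
theorem hits_sum (cn : Cn c.rule c.P Q c.I.pm.n E x) (in0 : ∀ ω, c.d0.In (c.tW ω) (c.κ ω)) (hc : 0 ≤ cc)
    (hA : 1 ≤ c.I.ha) {B βV s Tc kk N : ℕ} (hk : kk ≤ Tc) (ω : Ω) :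
    ∑ b0 ∈ range N, (hits (Fo c E) c.I.ha B βV s b0 kk (c.Zr hm cc s Q b0 kk ω)).card ≤ bnd c B βV s Tc := by
  have h1 := hitE_sum (R := fun b a => c.RT hm cc Q b (min a c.I.ha) ω) (F := Fo c E)
    (fun a b b' h => C0.rt_mono cn h ω _) (fun b => rt_mono_a cn in0 hc b ω) (Fo_mono cn) B βV (kk * s) 0 N c.I.ha hA
  have h2 : ∑ b0 ∈ range N, (hits (Fo c E) c.I.ha B βV s b0 kk (c.Zr hm cc s Q b0 kk ω)).card =
      ∑ b ∈ range N, ((range c.I.ha).filter fun a =>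
        HitE (fun a => c.RT hm cc Q (b + 0) (min a c.I.ha) ω) (fun a => c.RT hm cc Q (b + 0 + kk * s) (min a c.I.ha) ω)
          (Fo c E) B βV (b + 0) (b + 0 + kk * s) a).card := by
    refine Finset.sum_congr rfl fun b _ => ?_
    unfold hits
    congr 1
    refine Finset.filter_congr fun a _ => HitE.congr (fun y _ => ?_) ?_ fun _ _ => rfl
    · have := rce (c := c) (hm := hm) (cc := cc) (Q := Q) (s := s) (b0 := b) (kk := kk) (ω := ω) rfl (Nat.zero_le kk) y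
      rw [this, Nat.zero_mul]
    · exact rce rfl le_rfl a
  rw [h2]
  refine h1.trans ?_
  have h3 := Fo_le cn (c.I.ha - 1)
  have h4 : c.I.ha * (2 * B + βV + kk * s + 1) ≤ c.I.ha * (2 * B + βV + Tc * s + 1) :=
    Nat.mul_le_mul_left _ (by have := Nat.mul_le_mul_right s hk; omega)
  unfold bnd
  omega

/-- **the cost** -/
noncomputable def psR (c : C0 Ω) (E : List (Lt 2)) (B βV s Tc nB b0 kk : ℕ) (e : ℕ → ℕ → ℕ) : ℝ :=
  nB * (hits (Fo c E) c.I.ha B βV s b0 kk e).card / bnd c B βV s Tc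

theorem psR_nonneg (c : C0 Ω) (E : List (Lt 2)) (B βV s Tc nB b0 kk : ℕ) (e : ℕ → ℕ → ℕ) :
    0 ≤ psR c E B βV s Tc nB b0 kk e := by
  unfold psR
  positivity

/-- **its average** -/
theorem psR_avg (cn : Cn c.rule c.P Q c.I.pm.n E x) (in0 : ∀ ω, c.d0.In (c.tW ω) (c.κ ω)) (hc : 0 ≤ cc)
    (hA : 1 ≤ c.I.ha) (B βV s Tc nB N : ℕ) :
    ∑ b0 ∈ range N, ∑ kk ∈ range Tc, Q.ex (fun ω => psR c E B βV s Tc nB b0 kk (c.Zr hm cc s Q b0 kk ω)) ≤ nB * Tc := by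
  have hb : (0 : ℝ) < bnd c B βV s Tc := by
    have : 0 < bnd c B βV s Tc := by unfold bnd; omega
    exact_mod_cast this
  rw [Finset.sum_comm]
  have h1 : ∀ kk ∈ range Tc, ∑ b0 ∈ range N, Q.ex (fun ω => psR c E B βV s Tc nB b0 kk (c.Zr hm cc s Q b0 kk ω)) ≤ nB := by
    intro kk hkk
    rw [← ex_sum' Q]
    have h2 : ∀ ω, ∑ b0 ∈ range N, psR c E B βV s Tc nB b0 kk (c.Zr hm cc s Q b0 kk ω) ≤ nB := by
      intro ω
      have h3 := hits_sum (hm := hm) (cc := cc) cn in0 hc hA (B := B) (βV := βV) (s := s) (N := N)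
        (Finset.mem_range.1 hkk).le ω
      have h4 : ∑ b0 ∈ range N, psR c E B βV s Tc nB b0 kk (c.Zr hm cc s Q b0 kk ω) =
          nB / bnd c B βV s Tc * ((∑ b0 ∈ range N, (hits (Fo c E) c.I.ha B βV s b0 kk
            (c.Zr hm cc s Q b0 kk ω)).card : ℕ) : ℝ) := by
        rw [Nat.cast_sum, Finset.mul_sum]
        refine Finset.sum_congr rfl fun b _ => ?_
        unfold psR
        ring
      rw [h4]
      have h5 : ((∑ b0 ∈ range N, (hits (Fo c E) c.I.ha B βV s b0 kk (c.Zr hm cc s Q b0 kk ω)).card : ℕ) : ℝ) ≤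
          bnd c B βV s Tc := by exact_mod_cast h3
      have h6 : (0 : ℝ) ≤ nB / bnd c B βV s Tc := by positivity
      refine (mul_le_mul_of_nonneg_left h5 h6).trans (le_of_eq ?_)
      field_simp
    calc Q.ex (fun ω => ∑ b0 ∈ range N, psR c E B βV s Tc nB b0 kk (c.Zr hm cc s Q b0 kk ω)) ≤ Q.ex fun _ => (nB : ℝ) :=
          Q.ex_mono fun ω _ => h2 ω
      _ = nB := Q.ex_const _
  refine (Finset.sum_le_sum h1).trans (le_of_eq ?_)
  rw [Finset.sum_const, Finset.card_range, nsmul_eq_mul, mul_comm]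

/-- **few hit levels** -/
theorem reg_num {K1 δ1 Cψ : ℝ} (hK1 : 0 ≤ K1) (hδ : 0 < δ1) (hC : 0 ≤ Cψ) (m B βV s Tc : ℕ) (hm1 : 1 ≤ m) (hB : 1 ≤ B) :
    ∃ h0 : ℕ, ∀ (Ω : Type) [Fintype Ω] (c : C0 Ω) (N0 : ℕ) (E : List (Lt 2)), c.I.Good K1 N0 → c.I.m = m → h0 ≤ c.I.h →
      ∀ (b0 kk : ℕ) (e : ℕ → ℕ → ℕ), psR c E B βV s Tc (nBl (δ1 / 2) c.I.h m) b0 kk e ≤ Cψ →
        (m : ℝ) * (hits (Fo c E) c.I.ha B βV s b0 kk e).card ≤ c.I.h / (4 * B) := by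
  have hmr : (0 : ℝ) < m := by exact_mod_cast hm1
  have hBr : (0 : ℝ) < B := by exact_mod_cast hB
  obtain ⟨Cb, hCb⟩ : ∃ Cb : ℝ, Cb = 2 * (2 + 2 * K1) + 4 + (2 * B + βV + Tc * s + 1) := ⟨_, rfl⟩
  have hCb0 : 0 < Cb := by rw [hCb]; positivity
  obtain ⟨h1, hh1⟩ := exists_nat_gt (4 * m / δ1 + m : ℝ)
  obtain ⟨h2, hh2⟩ := exists_nat_gt (4 * B * (m * (4 * Cψ * Cb / δ1)))
  refine ⟨max h1 h2, ?_⟩
  intro Ω _ c N0 E good em hh b0 kk e hps
  have g1 : (4 * m / δ1 + m : ℝ) < c.I.h := hh1.trans_le (by exact_mod_cast (le_max_left _ _).trans hh)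
  have g2 : 4 * B * (m * (4 * Cψ * Cb / δ1)) ≤ c.I.h := hh2.le.trans (by exact_mod_cast (le_max_right _ _).trans hh)
  have hhr : (0 : ℝ) ≤ c.I.h := Nat.cast_nonneg _
  have g3 : (4 * m / δ1 : ℝ) ≤ c.I.h := by linarith
  have g4 : (m : ℝ) ≤ c.I.h := by
    have : (0 : ℝ) ≤ 4 * m / δ1 := by positivity
    linarith
  -- `1 ≤ h / m`, `1 ≤ δ1 / 4 h / m`
  have x1 : (1 : ℝ) ≤ c.I.h / m := by rwa [le_div_iff₀ hmr, one_mul]
  have x2 : (1 : ℝ) ≤ δ1 / 4 * (c.I.h / m) := by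
    rw [div_le_iff₀ hδ] at g3
    rw [← mul_div_assoc, le_div_iff₀ hmr]
    linarith
  -- `nB`
  have n1 : δ1 / 4 * (c.I.h / m) ≤ nBl (δ1 / 2) c.I.h m := by
    have h3 := Nat.lt_floor_add_one (δ1 / 2 * c.I.h / m)
    have h4 : δ1 / 2 * c.I.h / m = 2 * (δ1 / 4 * (c.I.h / m)) := by ring
    unfold nBl
    rw [h4] at h3 ⊢
    linarith
  have n0 : (0 : ℝ) < nBl (δ1 / 2) c.I.h m := by linarith
  -- `bnd`
  have hbnd : (bnd c B βV s Tc : ℝ) ≤ Cb * (c.I.h / m) := by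
    have h3 := good.n1
    have h4 : (c.I.ha : ℝ) ≤ c.I.h / m := by
      rw [← em]
      exact Nat.cast_div_le
    rw [em] at h3
    unfold bnd
    push_cast
    have h5 : (c.I.ha : ℝ) * (2 * B + βV + Tc * s + 1) ≤ c.I.h / m * (2 * B + βV + Tc * s + 1) :=
      mul_le_mul_of_nonneg_right h4 (by positivity)
    rw [hCb]
    nlinarith
  have hb : (0 : ℝ) < bnd c B βV s Tc := by
    have : 0 < bnd c B βV s Tc := by unfold bnd; omega
    exact_mod_cast this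
  unfold psR at hps
  rw [div_le_iff₀ hb] at hps
  set X : ℝ := ((hits (Fo c E) c.I.ha B βV s b0 kk e).card : ℝ) with hX
  have hX0 : 0 ≤ X := Nat.cast_nonneg _
  have k1 : δ1 / 4 * (c.I.h / m) * X ≤ Cψ * (Cb * (c.I.h / m)) :=
    (mul_le_mul_of_nonneg_right n1 hX0).trans (hps.trans (mul_le_mul_of_nonneg_left hbnd hC))
  have k2 : δ1 / 4 * X ≤ Cψ * Cb := by
    have h3 : (0 : ℝ) < c.I.h / m := by linarith
    have h4 : (c.I.h / m : ℝ) * (δ1 / 4 * X) ≤ (c.I.h / m : ℝ) * (Cψ * Cb) := by linarith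
    exact le_of_mul_le_mul_left h4 h3
  have k3 : X ≤ 4 * Cψ * Cb / δ1 := by
    rw [le_div_iff₀ hδ]
    linarith
  rw [le_div_iff₀ (by positivity)]
  have k4 := mul_le_mul_of_nonneg_left k3 hmr.le
  have k5 := mul_le_mul_of_nonneg_left k4 (by positivity : (0 : ℝ) ≤ 4 * B)
  linarith

/-! ### the fields -/

/-- the second paths of the window are monotone in the level -/
theorem RCe_mono (cn : Cn c.rule c.P Q c.I.pm.n E x) (in0 : ∀ ω, c.d0.In (c.tW ω) (c.κ ω)) (hc : 0 ≤ cc) {s b0 kk : ℕ}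
    {e : ℕ → ℕ → ℕ} {ω : Ω} (he : c.Zr hm cc s Q b0 kk ω = e) {k : ℕ} (hk : k ≤ kk) : Monotone (RCe c.I.ha e k) := by
  intro a a' h
  rw [rce he hk, rce he hk]
  exact rt_mono_a cn in0 hc _ ω h

/-- .. and in the cap -/
theorem RCe_cap (cn : Cn c.rule c.P Q c.I.pm.n E x) {s b0 kk : ℕ} {e : ℕ → ℕ → ℕ} {ω : Ω}
    (he : c.Zr hm cc s Q b0 kk ω = e) {k k' : ℕ} (h : k ≤ k') (hk : k' ≤ kk) (a : ℕ) :
    RCe c.I.ha e k a ≤ RCe c.I.ha e k' a := by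
  rw [rce he (h.trans hk), rce he hk]
  exact C0.rt_mono cn (Nat.add_le_add_left (Nat.mul_le_mul_right s h) b0) ω _

variable {D : PN} {τ υ : Type} {R : S3.Run Ω τ υ} {p : S3.Run.Num}

/-- **[REGP], the fields** (336's form of `regS`, `reg`) : run of the cap `b0 + kk s`, later caps `m (b1 + βS)`, `m (b1 + βV)`,
`rk0 = r0 + m k0`, `Xs` contains the hit levels -/
theorem reg_fields (H : Has D R p) (cn : Cn c.rule c.P Q c.I.pm.n E x) (in0 : ∀ ω, c.d0.In (c.tW ω) (c.κ ω)) (hc : 0 ≤ cc)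
    {s b0 kk : ℕ} {e : ℕ → ℕ → ℕ} {ω : Ω} (he : c.Zr hm cc s Q b0 kk ω = e) {B βS βV : ℕ} {Vs Xs : Finset ℕ}
    (hF : (fun a => D.F a + D.o) = Fo c E) (hR : ∀ a ≤ c.I.ha, D.R a = RCe c.I.ha e kk a)
    (hb : R.b1 = b0 + kk * s) (hβ : βS ≤ βV) (hli : ∀ k, D.li k < c.I.ha)
    (hX : hits (Fo c E) c.I.ha B βV s b0 kk e ⊆ Xs) :
    Monotone (k0 D (RCe c.I.ha e 0)) ∧ (∀ i, k0 D (RCe c.I.ha e 0) i ≤ D.L.k (D.ix i)) ∧
    (∀ k, 1 ≤ k → k ≤ R.n → S3.lv R k ∉ Vs → S3.lv R k ∉ Xs →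
      R.m * (R.b1 + βS) + R.C.rk k ≤ R.C.rf k ∨ R.C.rf k + 2 * (R.m * B) ≤ R.m * R.b1 + R.C.rk k) ∧
    (∀ k, 1 ≤ k → k ≤ R.n → S3.lv R k ∈ Vs → S3.lv R k ∉ Xs →
      R.m * (R.b1 + βV) + R.C.rk k ≤ R.C.rf k ∨
        R.C.rf k + 2 * (R.m * B) ≤ R.m * R.b1 + (R.r0 + R.m * k0 D (RCe c.I.ha e 0) k)) := by
  have hle : ∀ i, k0 D (RCe c.I.ha e 0) i ≤ D.L.k (D.ix i) := k0_le D fun i _ => by
    have h1 := hli i
    rw [hR (D.li i - 1) (by omega)]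
    exact RCe_cap cn he (Nat.zero_le _) le_rfl _
  refine ⟨k0_mono D (RCe_mono cn in0 hc he (Nat.zero_le _)), hle, RegR.fields H (b0 := b0) (by rw [hb]; omega) hβ
    (R1 := RCe c.I.ha e kk) (fun k _ _ => hR _ ?_) hle fun k _ _ h => hX ?_⟩
  · rw [lv_eq H]
    exact (hli k).le
  · rw [hF, hb] at h
    unfold hits
    rw [Finset.mem_filter, Finset.mem_range, lv_eq H]
    rw [lv_eq H] at h
    exact ⟨hli k, h⟩

end c0

end Vale.Agent.P106.U.H715.RegC
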