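import Vale.Agent.P106.U.H715.LowS

/-!
# P106 / U / H715 : row [S], the low levels at one place (helper715)

* **`yS_low`** : the part of `sS` at the levels `≤ A0`;  **`yS_cut`** : cut off the low levels.
-/

set_option autoImplicit false

namespace Vale.Agent.P106.U.H715.OldS

open Finset Vale.Agent.P127 Vale.Agent.P127.Stk Vale.Agent.P127.U Vale.Agent.P106.W
open Vale.Agent.P127.U.CellD (q2)
open Vale.Agent.P106.U Vale.Agent.P106.U.H449 Vale.Agent.P106.U.H565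
open Vale.Agent.P106.U.H712.Fam (Win Vl Pl)
open Vale.Agent.P106.U.H712.Fam.Win (good)
open Vale.Agent.P106.U.S3 (Run Pf LTh LDk At' IdO F2b lv)
open Vale.Agent.P106.U.H61.Ext2 Vale.Agent.P106.U.H61.PS

variable {Ω : Type} [Fintype Ω] (w : Win Ω) {Rm : ℕ}

/-- **the low levels at a good value** -/
theorem yS_low (ho : w.Ho Rm) (p : H712.Fam.Par) {k : ℕ} {z : Vl} (hz : 0 < w.Q1.pr (w.Z k) z) (hg : good k z)
    {μ : ℕ} {o : Fin 7 → ℝ} {d : ℕ} (A0 : ℕ) (Y : ℕ → Prop) (hY : ∀ a, Y a → a ≤ A0) (hμ : μ ≤ p.B) (hB : w.c.I.B = p.B)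
    (h8 : 8 * p.B < w.b0) (hr : 8 * μ ≤ w.c.I.rs) :
    yS (w.R k z) (w.nm k z) p.B (w.bS p k) (w.Vs p k z) (w.Xs p k z) μ o d Y ≤
      (A0 + 1) * (p.B * Real.log (H523.FewS.nFew w.c.I.m p.B μ)) := by
  classical
  have hL : (0 : ℝ) ≤ p.B * Real.log (H523.FewS.nFew w.c.I.m p.B μ) :=
    mul_nonneg (Nat.cast_nonneg _) (Real.log_natCast_nonneg _)
  refine (yS_le w ho p hz hg Y hμ hB h8 hr).trans (mul_le_mul_of_nonneg_right ?_ hL)
  have h7 : ((range (w.c.I.ha + 1)).filter fun a => a ∉ w.Vs p k z ∧ a ∉ w.Xs p k z ∧ Y a).card ≤ A0 + 1 := by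
    refine (Finset.card_le_card (t := range (A0 + 1)) fun a ha' => ?_).trans (Finset.card_range _).le
    rw [Finset.mem_filter] at ha'
    rw [Finset.mem_range]
    exact Nat.lt_succ_of_le (hY a ha'.2.2.2)
  exact_mod_cast h7

/-- **cut off the low levels** : the levels with `Y`, from the levels `> A0` with `Y` -/
theorem yS_cut (ho : w.Ho Rm) (p : H712.Fam.Par) {k : ℕ} {z : Vl} (hz : 0 < w.Q1.pr (w.Z k) z) (hg : good k z)
    {μ : ℕ} {o : Fin 7 → ℝ} {d : ℕ} (A0 : ℕ) (Y : ℕ → Prop) (hμ : μ ≤ p.B) (hB : w.c.I.B = p.B)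
    (h8 : 8 * p.B < w.b0) (hr : 8 * μ ≤ w.c.I.rs) :
    yS (w.R k z) (w.nm k z) p.B (w.bS p k) (w.Vs p k z) (w.Xs p k z) μ o d Y ≤
      yS (w.R k z) (w.nm k z) p.B (w.bS p k) (w.Vs p k z) (w.Xs p k z) μ o d (fun a => Y a ∧ A0 < a) +
      (A0 + 1) * (p.B * Real.log (H523.FewS.nFew w.c.I.m p.B μ)) := by
  have h1 := yS_low w ho p hz hg (o := o) (d := d) A0 (fun a => a ≤ A0) (fun _ h => h) hμ hB h8 hr
  have h2 : yS (w.R k z) (w.nm k z) p.B (w.bS p k) (w.Vs p k z) (w.Xs p k z) μ o d Y ≤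
      yS (w.R k z) (w.nm k z) p.B (w.bS p k) (w.Vs p k z) (w.Xs p k z) μ o d (fun a => (Y a ∧ A0 < a) ∨ a ≤ A0) :=
    yS_mono fun a h => (Nat.lt_or_ge A0 a).imp (fun h' => ⟨h, h'⟩) id
  have h3 := yS_or_le (R := w.R k z) (p := w.nm k z) (B := p.B) (bS := w.bS p k) (Vs := w.Vs p k z) (Xs := w.Xs p k z)
    (μ := μ) (o := o) (d := d) (fun a => Y a ∧ A0 < a) (fun a => a ≤ A0)
  linarith

end Vale.Agent.P106.U.H715.OldS
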