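import Vale.Agent.P106.U.H661.SOld
import Vale.Agent.P106.U.H715.LowP

/-!
# P106 / U / H715 : row [S], the bound of the old part at a place (helper715)

* **`plO`** : helper661's `PlO`.
-/

set_option autoImplicit false

namespace Vale.Agent.P106.U.H715.PlOld

open Finset Vale.Agent.P127 Vale.Agent.P127.Stk Vale.Agent.P127.U Vale.Agent.P106.W
open Vale.Agent.P127.U.CellD (q2)
open Vale.Agent.P106.U Vale.Agent.P106.U.H449 Vale.Agent.P106.U.H565
open Vale.Agent.P106.U.H823.PathP Vale.Agent.P106.U.H823.PathNum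
open Vale.Agent.P106.U.H712.Fam (Win Vl Pl)
open Vale.Agent.P106.U.H712.Fam.Win (good)
open Vale.Agent.P106.U.S3 (Run Pf LTh LDk At' IdO F2b lv)
open Vale.Agent.P106.U.H61.Ext2 Vale.Agent.P106.U.H61.PS Vale.Agent.P106.U.H61.Reg
open Vale.Agent.P106.U.H661.SD Vale.Agent.P106.U.H661.Age
open Vale.Agent.P106.U.H715.OldS

variable {σ : S5.Cst} {cc : ℝ} {J M Md : ℕ} {p : H61.PS.Par} {X0 R0 h0 : ℕ} {Ω : Type} [Fintype Ω]
  (x : Ctx σ cc J M Md p X0 R0 h0 Ω)

theorem gL_nonneg (oo : Oo) (b0 μ : ℕ) (o : Fin 7 → ℝ) (a r d k : ℕ) (ω : Ω) : 0 ≤ gL x oo b0 μ o a r d k ω := by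
  classical
  unfold gL
  split_ifs
  · exact mi_nonneg _ _ _ _
  · exact le_rfl

/-- **the old part at a place** -/
theorem plO (n : Nu x) (oo : Oo) {μ d b0 : ℕ} (hμ : μ ≤ p.B) (hd : d ≤ p.B) (o : Fin 7 → ℝ) (hb0 : b0 ∈ x.bs) :
    PlO x oo b0 μ o d := by
  classical
  intro k ω hω hg
  rw [x.mem_bs] at hb0
  obtain ⟨z, hzd⟩ : ∃ z, z = x.w b0 k ω := ⟨_, rfl⟩
  have hz : 0 < x.Q1.pr (x.w b0 k) z := by rw [hzd]; exact x.Q1.pr_pos _ hω
  have hg' : good k z := by rw [hzd]; exact hg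
  have hok : x.Ok oo 0 b0 k z := x.ok oo hz hb0.2 (Nat.zero_le _) hg'
  have hzw : z = (x.win oo b0).Z k ω := hzd
  have hcut := yS_cut (x.win oo b0) (x.ho oo b0) p.fp (k := k) (z := z) hz hg' (μ := μ) (o := o) (d := d) p.g
    (fun a => ¬ yn (x.win oo b0) (H715.RegC.Fo x.c x.E1) (MM p) p.g d p.k1 k z a) hμ x.eB hb0.2
    (by have := n.hrs; show 8 * μ ≤ x.c.I.rs; omega)
  have e1 : (x.win oo b0).c.I.m = p.m := x.em
  rw [e1] at hcut
  show oS x (x.win oo b0) μ o d k (x.w b0 k ω) ≤ _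
  rw [← hzd]
  refine hcut.trans (add_le_add ?_ le_rfl)
  -- the literal data
  have hyn : ∀ a, ¬ yn (x.win oo b0) (H715.RegC.Fo x.c x.E1) (MM p) p.g d p.k1 k z a → p.k1 ≤ ag (kp x b0 a d) k ω := by
    intro a h
    rw [hzw, yn_iff] at h
    exact not_lt.1 h
  obtain ⟨Y, hY⟩ : ∃ Y : ℕ → Prop, Y = fun a => ¬ yn (x.win oo b0) (H715.RegC.Fo x.c x.E1) (MM p) p.g d p.k1 k z a ∧ p.g < a :=
    ⟨_, rfl⟩
  rw [← hY]
  have hH := x.hasO oo hz hg'
  have hlev : ∀ i, i ≤ (x.C oo b0 k z hz).D.n → (x.C oo b0 k z hz).D.L.lev i < x.c.I.ha + 1 := by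
    intro i hi
    have h1 := H428.RunPt.li_le (x.C oo b0 k z hz) i
    have h0 : i ≤ (x.C oo b0 k z hz).D.N := hi.trans (Nat.le_add_right _ _)
    rw [(x.C oo b0 k z hz).D.li_eq h0] at h1
    have h2 := x.good.Ab1
    have h3 := x.good.Ab2
    have h4 : (x.C oo b0 k z hz).D.L.lev i ≤ x.c.I.Ab + x.c.I.J := h1
    omega
  have key : yS (x.R oo b0 k z hz) (x.C oo b0 k z hz).num p.B (x.cap b0 k) (x.Vs k z) (x.Xs b0 k z) μ o d Y ≤
      ∑ a ∈ range (x.c.I.ha + 1), ∑ r ∈ range (p.B + 1), gL x oo b0 μ o a r d k ω := by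
    unfold yS
    rw [sum_pair hH ((IdO (x.R oo b0 k z hz) (x.Vs k z) (x.Xs b0 k z)).filter (fun k' => Y (lv (x.R oo b0 k z hz) k')))
      (A := x.c.I.ha + 1) (fun i hi => ?_) (fun i hi => ?_)]
    · rw [Finset.sum_product]
      refine Finset.sum_le_sum fun a _ => Finset.sum_le_sum fun r hr => ?_
      split_ifs with hc
      · obtain ⟨c1, c2, c3, c4, c5⟩ := hc
        simp only at c1 c2 c3 c4 c5
        rw [Finset.mem_filter] at c1
        obtain ⟨c1, cY⟩ := c1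
        unfold IdO at c1
        rw [Finset.mem_filter, Finset.mem_Icc, hH.n] at c1
        have hn : (x.C oo b0 k z hz).D.L.J a - r ≤ (x.C oo b0 k z hz).D.n := c1.1.2
        have elv : lv (x.R oo b0 k z hz) ((x.C oo b0 k z hz).D.L.J a - r) = a := by
          rw [H61.Reg.lv_eq hH (hn.trans (Nat.le_add_right _ _)), lev_sub _ c2]
        rw [elv, hY] at cY
        have hV : V0 (x.C oo b0 k z hz).D p.B p.g a r d :=
          ⟨by rw [Finset.mem_range] at hr; omega, hd, cY.2, c2, hn, c3, c4, c5⟩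
        have hv : vd x oo b0 a r d k z := ⟨hok, hV⟩
        have hv' : p.k1 ≤ ag (kp x b0 a d) k ω ∧ (lD x oo b0 μ o a r d).val k (x.w b0 k ω) := by
          refine ⟨hyn a cY.1, ?_⟩
          rw [← hzd]
          exact hv
        unfold gL
        rw [dif_pos hv']
        subst hzd
        exact le_of_eq rfl
      · exact gL_nonneg x oo b0 μ o a r d k ω
    · rw [Finset.mem_filter] at hi
      have h1 := hi.1
      unfold IdO at h1
      rw [Finset.mem_filter, Finset.mem_Icc, hH.n] at h1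
      exact h1.1.2.trans (Nat.le_add_right _ _)
    · rw [Finset.mem_filter] at hi
      have h1 := hi.1
      unfold IdO at h1
      rw [Finset.mem_filter, Finset.mem_Icc, hH.n] at h1
      exact hlev i h1.1.2
  have e := (x.win oo b0).cv_eq (k := k) (z := z) hz
  have h3 := (x.win oo b0).cv_m k z
  show yS (((x.win oo b0).cv k z).erun h3) ((x.win oo b0).cv k z).num p.B ((x.win oo b0).bS p.fp k) ((x.win oo b0).Vs p.fp k z)
    ((x.win oo b0).Xs p.fp k z) μ o d Y ≤ _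
  revert h3
  rw [e]
  intro h3
  exact key

end Vale.Agent.P106.U.H715.PlOld
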