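import Mathlib

/-!
# P106 / U / H715 : choice of the base cap and of the doubling caps (helper715, notes 18374 (3), 18651)

Pure combinatorics.

* `scales` : a set `G1` of caps of density `ρ` in `[0, N)`; scales `[u s, 2 u s)`, `u (s + 1) ≥ 4 u s + C`.  There is a base
  `b1` and a subset `G2` of `G1` above it, one cap in each of at least `ρ / 2 * S` scales: so `2 (b - b1) + C ≤ b' - b1` for
  `b < b'` in `G2`.
* `caps` : out of a set `G` with this separation, `K + 1` increasing caps with `φ ≤ ε`, if `∑_G φ ≤ Φ` and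
  `K + 1 + Φ / ε ≤ #G`.
* `scal`, `scal_step`, `scal_mono`, `scal_pos` : an explicit sequence of scales.
-/

set_option autoImplicit false

namespace Vale.Agent.P106.U.H715

open Finset

/-- explicit scales -/
def scal (C : ℕ) (s : ℕ) : ℕ := (4 + C) ^ (s + 1)

theorem scal_pos (C s : ℕ) : 0 < scal C s := by unfold scal; positivity

theorem scal_step (C s : ℕ) : 4 * scal C s + C ≤ scal C (s + 1) := by
  have h := scal_pos C s
  have e : scal C (s + 1) = (4 + C) * scal C s := by unfold scal; ring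
  rw [e]
  nlinarith

theorem u_mono {u : ℕ → ℕ} {C S : ℕ} (hu : ∀ s, s + 1 < S → 4 * u s + C ≤ u (s + 1)) {s s' : ℕ} (h : s < s')
    (hS : s' < S) : 4 * u s + C ≤ u s' := by
  induction s', h using Nat.le_induction with
  | base => exact hu s hS
  | succ k hk ih =>
    have h1 := ih (by omega)
    have h2 := hu k hS
    omega

theorem scal_mono {C s s' : ℕ} (h : s ≤ s') : scal C s ≤ scal C s' := by
  unfold scal
  exact Nat.pow_le_pow_right (by omega) (by omega)

/-- counting: the number of bases below `N` which see `b` in the scale `u` -/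
theorem count_base {N u b : ℕ} (hb : b < N) (hb2 : 2 * u ≤ b) :
    u ≤ ((range N).filter fun b1 => b1 + u ≤ b ∧ b < b1 + 2 * u).card := by
  have h1 : (Ico (b + 1 - 2 * u) (b + 1 - u)) ⊆ (range N).filter fun b1 => b1 + u ≤ b ∧ b < b1 + 2 * u := by
    intro x hx
    rw [Finset.mem_Ico] at hx
    rw [Finset.mem_filter, Finset.mem_range]
    omega
  have h2 := Finset.card_le_card h1
  rw [Nat.card_Ico] at h2
  omega

open Classical in
/-- **choice of the base**: many scales above it meet the set -/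
theorem scales {G1 : Finset ℕ} {N S C : ℕ} {ρ : ℝ} {u : ℕ → ℕ} (hN : 0 < N) (hsub : G1 ⊆ range N)
    (hcard : ρ * N ≤ (G1.card : ℝ)) (hu0 : ∀ s < S, 0 < u s) (hu1 : ∀ s < S, 2 * (u s : ℝ) ≤ ρ / 2 * N)
    (hu : ∀ s, s + 1 < S → 4 * u s + C ≤ u (s + 1)) :
    ∃ b1 < N, ∃ G2 ⊆ G1, ρ / 2 * S ≤ (G2.card : ℝ) ∧
      (∀ b ∈ G2, ∃ s < S, b1 + u s ≤ b ∧ b < b1 + 2 * u s) ∧
      ∀ b ∈ G2, ∀ b' ∈ G2, b < b' → 2 * (b - b1) + C ≤ b' - b1 := by
  -- usable scales
  set us : ℕ → Finset ℕ := fun b1 => (range S).filter fun s => ∃ b ∈ G1, b1 + u s ≤ b ∧ b < b1 + 2 * u s with hus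
  have hsum : ρ / 2 * S * N ≤ ∑ b1 ∈ range N, ((us b1).card : ℝ) := by
    have e1 : ∀ b1 ∈ range N, ∑ s ∈ range S, (1 / (u s : ℝ)) * ((G1.filter fun b => b1 + u s ≤ b ∧ b < b1 + 2 * u s).card : ℝ) ≤
        ((us b1).card : ℝ) := by
      intro b1 _
      have e2 : ((us b1).card : ℝ) = ∑ s ∈ range S, (if ∃ b ∈ G1, b1 + u s ≤ b ∧ b < b1 + 2 * u s then (1 : ℝ) else 0) := by
        rw [Finset.sum_boole]
      rw [e2]
      refine Finset.sum_le_sum fun s hs => ?_
      have hs' := hu0 s (Finset.mem_range.1 hs)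
      have hsr : (0 : ℝ) < u s := by exact_mod_cast hs'
      split_ifs with hex
      · have e3 : (G1.filter fun b => b1 + u s ≤ b ∧ b < b1 + 2 * u s).card ≤ u s := by
          have : (G1.filter fun b => b1 + u s ≤ b ∧ b < b1 + 2 * u s) ⊆ Ico (b1 + u s) (b1 + 2 * u s) := by
            intro x hx
            rw [Finset.mem_filter] at hx
            rw [Finset.mem_Ico]
            exact hx.2
          have h2 := Finset.card_le_card this
          rw [Nat.card_Ico] at h2
          omega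
        have e4 : ((G1.filter fun b => b1 + u s ≤ b ∧ b < b1 + 2 * u s).card : ℝ) ≤ u s := by exact_mod_cast e3
        rw [div_mul_eq_mul_div, one_mul, div_le_one hsr]
        exact e4
      · have e3 : (G1.filter fun b => b1 + u s ≤ b ∧ b < b1 + 2 * u s) = ∅ := by
          rw [Finset.filter_eq_empty_iff]
          exact fun b hb h => hex ⟨b, hb, h⟩
        rw [e3, Finset.card_empty]
        simp
    refine le_trans ?_ (Finset.sum_le_sum e1)
    rw [Finset.sum_comm]
    have e5 : ∀ s ∈ range S, ρ / 2 * N ≤ ∑ b1 ∈ range N, (1 / (u s : ℝ)) *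
        ((G1.filter fun b => b1 + u s ≤ b ∧ b < b1 + 2 * u s).card : ℝ) := by
      intro s hs
      have hs' := hu0 s (Finset.mem_range.1 hs)
      have hsr : (0 : ℝ) < u s := by exact_mod_cast hs'
      have hs1 := hu1 s (Finset.mem_range.1 hs)
      rw [← Finset.mul_sum]
      have e6 : ∑ b1 ∈ range N, ((G1.filter fun b => b1 + u s ≤ b ∧ b < b1 + 2 * u s).card : ℝ) =
          ∑ b ∈ G1, (((range N).filter fun b1 => b1 + u s ≤ b ∧ b < b1 + 2 * u s).card : ℝ) := by
        have : ∀ b1, ((G1.filter fun b => b1 + u s ≤ b ∧ b < b1 + 2 * u s).card : ℝ) =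
            ∑ b ∈ G1, (if b1 + u s ≤ b ∧ b < b1 + 2 * u s then (1 : ℝ) else 0) := fun b1 => by
          rw [Finset.sum_boole]
        rw [Finset.sum_congr rfl fun b1 _ => this b1, Finset.sum_comm]
        refine Finset.sum_congr rfl fun b _ => ?_
        rw [Finset.sum_boole]
      rw [e6]
      have e7 : (u s : ℝ) * ((G1.filter fun b => 2 * u s ≤ b).card : ℝ) ≤
          ∑ b ∈ G1, (((range N).filter fun b1 => b1 + u s ≤ b ∧ b < b1 + 2 * u s).card : ℝ) := by
        calc (u s : ℝ) * ((G1.filter fun b => 2 * u s ≤ b).card : ℝ)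
            = ∑ _b ∈ G1.filter fun b => 2 * u s ≤ b, (u s : ℝ) := by rw [Finset.sum_const, nsmul_eq_mul, mul_comm]
          _ ≤ ∑ b ∈ G1.filter fun b => 2 * u s ≤ b,
              (((range N).filter fun b1 => b1 + u s ≤ b ∧ b < b1 + 2 * u s).card : ℝ) := by
              refine Finset.sum_le_sum fun b hb => ?_
              rw [Finset.mem_filter] at hb
              exact_mod_cast count_base (Finset.mem_range.1 (hsub hb.1)) hb.2
          _ ≤ _ := Finset.sum_le_sum_of_subset_of_nonneg (Finset.filter_subset _ _) fun _ _ _ => Nat.cast_nonneg _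
      have e8 : (G1.card : ℝ) - 2 * u s ≤ ((G1.filter fun b => 2 * u s ≤ b).card : ℝ) := by
        have h1 := Finset.card_filter_add_card_filter_not (s := G1) (fun b => 2 * u s ≤ b)
        have h2 : (G1.filter fun b => ¬ 2 * u s ≤ b).card ≤ 2 * u s := by
          have : (G1.filter fun b => ¬ 2 * u s ≤ b) ⊆ range (2 * u s) := by
            intro x hx
            rw [Finset.mem_filter] at hx
            rw [Finset.mem_range]
            omega
          have h3 := Finset.card_le_card this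
          rwa [Finset.card_range] at h3
        have h3 : G1.card ≤ (G1.filter fun b => 2 * u s ≤ b).card + 2 * u s := by omega
        have h4 : (G1.card : ℝ) ≤ ((G1.filter fun b => 2 * u s ≤ b).card : ℝ) + 2 * (u s : ℝ) := by exact_mod_cast h3
        linarith
      have e10 : ∀ y : ℝ, 1 / (u s : ℝ) * y = y / u s := fun y => by ring
      rw [e10, le_div_iff₀ hsr]
      nlinarith
    have e9 := Finset.sum_le_sum e5
    rw [Finset.sum_const, card_range, nsmul_eq_mul] at e9
    refine le_trans (le_of_eq ?_) e9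
    ring
  obtain ⟨b1, hb1, hb1c⟩ : ∃ b1 ∈ range N, ρ / 2 * S ≤ ((us b1).card : ℝ) := by
    by_contra hcon
    push Not at hcon
    have h1 := Finset.sum_lt_sum_of_nonempty (⟨0, Finset.mem_range.2 hN⟩ : (range N).Nonempty) hcon
    rw [Finset.sum_const, card_range, nsmul_eq_mul] at h1
    linarith
  -- one cap in each usable scale
  have hch : ∀ s ∈ us b1, ∃ b, b ∈ G1 ∧ b1 + u s ≤ b ∧ b < b1 + 2 * u s := by
    intro s hs
    obtain ⟨b, h1, h2, h3⟩ := (Finset.mem_filter.1 hs).2
    exact ⟨b, h1, h2, h3⟩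
  choose! f hf using hch
  have hmemS : ∀ s ∈ us b1, s < S := fun s hs => Finset.mem_range.1 (Finset.mem_filter.1 hs).1
  have hlt : ∀ s ∈ us b1, ∀ s' ∈ us b1, s < s' → 2 * (f s - b1) + C ≤ f s' - b1 := by
    intro s hs s' hs' h
    have h1 := u_mono hu h (hmemS s' hs')
    have h2 := hf s hs
    have h3 := hf s' hs'
    omega
  have hflt : ∀ s ∈ us b1, ∀ s' ∈ us b1, s < s' → f s < f s' := by
    intro s hs s' hs' h
    have h1 := hlt s hs s' hs' h
    have h2 := hf s hs
    have h3 := hu0 s (hmemS s hs)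
    omega
  refine ⟨b1, Finset.mem_range.1 hb1, (us b1).image f, ?_, ?_, ?_, ?_⟩
  · intro b hb
    obtain ⟨s, hs, rfl⟩ := Finset.mem_image.1 hb
    exact (hf s hs).1
  · rw [Finset.card_image_of_injOn]
    · exact hb1c
    · intro s hs s' hs' e
      rcases lt_trichotomy s s' with h | h | h
      · exact absurd e (hflt s hs s' hs' h).ne
      · exact h
      · exact absurd e (hflt s' hs' s hs h).ne'
  · intro b hb
    obtain ⟨s, hs, rfl⟩ := Finset.mem_image.1 hb
    exact ⟨s, hmemS s hs, (hf s hs).2⟩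
  · intro b hb b' hb' hbb
    obtain ⟨s, hs, rfl⟩ := Finset.mem_image.1 hb
    obtain ⟨s', hs', rfl⟩ := Finset.mem_image.1 hb'
    rcases lt_trichotomy s s' with h | h | h
    · exact hlt s hs s' hs' h
    · rw [h] at hbb
      exact absurd hbb (lt_irrefl _)
    · have := hflt s' hs' s hs h
      omega

/-- **`K + 1` caps** of a separated set which are good for a quantity of bounded sum -/
theorem caps {G : Finset ℕ} {b1 C K : ℕ} (hsep : ∀ b ∈ G, ∀ b' ∈ G, b < b' → 2 * (b - b1) + C ≤ b' - b1)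
    {φ : ℕ → ℝ} {Φ ε : ℝ} (hε : 0 < ε) (hφ : ∀ b ∈ G, 0 ≤ φ b) (hΦ : ∑ b ∈ G, φ b ≤ Φ)
    (hK : (K : ℝ) + 1 + Φ / ε ≤ G.card) :
    ∃ b : ℕ → ℕ, (∀ k ≤ K, b k ∈ G ∧ φ (b k) ≤ ε) ∧ (∀ k < K, b k < b (k + 1)) ∧
      ∀ k < K, 2 * (b k - b1) + C ≤ b (k + 1) - b1 := by
  classical
  set G' := G.filter fun b => φ b ≤ ε with hG'
  have h1 : ((G.filter fun b => ¬ φ b ≤ ε).card : ℝ) * ε ≤ Φ := by
    calc ((G.filter fun b => ¬ φ b ≤ ε).card : ℝ) * ε
        = ∑ _b ∈ G.filter fun b => ¬ φ b ≤ ε, ε := by rw [Finset.sum_const, nsmul_eq_mul]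
      _ ≤ ∑ b ∈ G.filter fun b => ¬ φ b ≤ ε, φ b :=
          Finset.sum_le_sum fun b hb => (not_le.1 (Finset.mem_filter.1 hb).2).le
      _ ≤ ∑ b ∈ G, φ b := Finset.sum_le_sum_of_subset_of_nonneg (Finset.filter_subset _ _) fun b hb _ => hφ b hb
      _ ≤ Φ := hΦ
  have h2 : ((G.filter fun b => ¬ φ b ≤ ε).card : ℝ) ≤ Φ / ε := by rwa [le_div_iff₀ hε]
  have h3 := Finset.card_filter_add_card_filter_not (s := G) (fun b => φ b ≤ ε)
  have h4 : (G.card : ℝ) = G'.card + ((G.filter fun b => ¬ φ b ≤ ε).card : ℝ) := by exact_mod_cast h3.symm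
  have h5 : K + 1 ≤ G'.card := by
    have : ((K + 1 : ℕ) : ℝ) ≤ G'.card := by push_cast; linarith
    exact_mod_cast this
  obtain ⟨G'', hG'', hc⟩ := Finset.exists_subset_card_eq h5
  let e := G''.orderEmbOfFin hc
  have hmem : ∀ k, e k ∈ G'' := fun k => Finset.orderEmbOfFin_mem G'' hc k
  refine ⟨fun k => if h : k < K + 1 then e ⟨k, h⟩ else 0, ?_, ?_, ?_⟩
  · intro k hk
    have hk' : k < K + 1 := by omega
    simp only [dif_pos hk']
    have := hG'' (hmem ⟨k, hk'⟩)
    exact Finset.mem_filter.1 this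
  · intro k hk
    have hk1 : k < K + 1 := by omega
    have hk2 : k + 1 < K + 1 := by omega
    simp only [dif_pos hk1, dif_pos hk2]
    exact e.strictMono (by rw [Fin.lt_def]; exact Nat.lt_succ_self k)
  · intro k hk
    have hk1 : k < K + 1 := by omega
    have hk2 : k + 1 < K + 1 := by omega
    simp only [dif_pos hk1, dif_pos hk2]
    refine hsep _ (Finset.mem_filter.1 (hG'' (hmem ⟨k, hk1⟩))).1 _ (Finset.mem_filter.1 (hG'' (hmem ⟨k + 1, hk2⟩))).1 ?_
    exact e.strictMono (by rw [Fin.lt_def]; exact Nat.lt_succ_self k)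

end Vale.Agent.P106.U.H715
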