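import Vale.Agent.P106.U.H715.OldS

/-!
# P106 / U / H715 : row [S], the low levels (helper715)

The plateau of the paths is used only at levels `> g + 1`; the labels at the levels `≤ A0` are few.

* `yS_or_le` : the sum over `Y1 ∨ Y2`.
* **`low_row`** : the mean of the part of the levels `≤ A0`;  **`yl_row`** : young or low levels.
-/

set_option autoImplicit false

namespace Vale.Agent.P106.U.H715.OldS

open Finset Vale.Agent.P127 Vale.Agent.P127.Stk Vale.Agent.P127.U Vale.Agent.P106.W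
open Vale.Agent.P127.U.CellD (q2)
open Vale.Agent.P106.U Vale.Agent.P106.U.H449 Vale.Agent.P106.U.H565 Vale.Agent.P106.U.H339W
open Vale.Agent.P106.U.H712.Fam (Win Vl Pl)
open Vale.Agent.P106.U.H712.Fam.Win (good)
open Vale.Agent.P106.U.S3 (Run Pf LTh LDk At' IdO F2b lv)
open Vale.Agent.P106.U.H61.Ext2 Vale.Agent.P106.U.H61.PS

section place

variable {Ω : Type} [Fintype Ω] {τ υ : Type} {R : Run Ω τ υ} {p : Run.Num} {B bS : ℕ} {Vs Xs : Finset ℕ} {μ : ℕ}
  {o : Fin 7 → ℝ} {d : ℕ}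

theorem yS_mono {Y Y' : ℕ → Prop} (h : ∀ a, Y a → Y' a) : yS R p B bS Vs Xs μ o d Y ≤ yS R p B bS Vs Xs μ o d Y' := by
  classical
  unfold yS
  refine Finset.sum_le_sum_of_subset_of_nonneg (fun k hk => ?_) fun _ _ _ =>
    Finset.sum_nonneg fun _ _ => mi_nonneg _ _ _ _
  rw [Finset.mem_filter] at hk ⊢
  exact ⟨hk.1, h _ hk.2⟩

theorem yS_or_le (Y Y' : ℕ → Prop) : yS R p B bS Vs Xs μ o d (fun a => Y a ∨ Y' a) ≤
    yS R p B bS Vs Xs μ o d Y + yS R p B bS Vs Xs μ o d Y' := by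
  classical
  unfold yS
  rw [Finset.sum_filter, Finset.sum_filter, Finset.sum_filter, ← Finset.sum_add_distrib]
  refine Finset.sum_le_sum fun k _ => ?_
  have h2 : 0 ≤ ∑ i ∈ At' R p B d k, mi R.Q (LTh (H101.lc R.C μ o) (R.m * R.b1) i) ((H101.lc R.C μ o).cell k bS)
        (LDk (H101.lc R.C μ o) (R.m * R.b1) k) := Finset.sum_nonneg fun _ _ => mi_nonneg _ _ _ _
  by_cases h : Y (lv R k)
  · rw [if_pos h, if_pos (Or.inl h)]
    split_ifs <;> linarith
  · by_cases h' : Y' (lv R k)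
    · rw [if_neg h, if_pos h', if_pos (Or.inr h')]
      linarith
    · rw [if_neg h, if_neg h', if_neg (fun hh => hh.elim h h')]
      linarith

end place

section row

variable {σ : S5.Cst} {cc : ℝ} {J M Md : ℕ} {p : H61.PS.Par} {X0 R0 h0 : ℕ} {Ω : Type} [Fintype Ω]
  (x : Ctx σ cc J M Md p X0 R0 h0 Ω)

open Classical in
/-- **the low levels of the row [S]** -/
theorem low_row' (oo : Oo) (A0 T : ℕ) (Y : ℕ → Prop) (hY : ∀ a, Y a → a ≤ A0) {μ : ℕ} (o : Fin 7 → ℝ) {K' : ℝ} (hK' : 0 < K') (hμ : μ ≤ p.B)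
    (hr : 8 * μ ≤ x.c.I.rs) (ha : 1 ≤ x.c.I.ha) :
    x.mean oo T (fun w k z => if p.k1 ≤ k then ∑ d ∈ range (p.B + 1),
      yS (w.R k z) (w.nm k z) p.B (w.bS p.fp k) (w.Vs p.fp k z) (w.Xs p.fp k z) μ o d Y /
        F2b (w.R k z) (w.nm k z) p.B μ K' d else 0) ≤
      x.nB * (T * (((p.B : ℝ) + 1) * ((A0 + 1) * ((p.B : ℝ) ^ 2 * Real.log (H523.FewS.nFew p.m p.B μ))) / x.c.I.h)) := by
  set L : ℝ := Real.log (H523.FewS.nFew p.m p.B μ) with hL
  have hL0 : 0 ≤ L := Real.log_natCast_nonneg _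
  have hm3 := x.hm
  have hah := x.good.hah
  have hh0 : (0 : ℝ) < x.c.I.h := by
    have h1 : 3 * x.c.I.ha ≤ x.c.I.m * x.c.I.ha := Nat.mul_le_mul_right _ hm3
    have : 0 < x.c.I.h := by omega
    exact_mod_cast this
  set C : ℝ := ((p.B : ℝ) + 1) * ((A0 + 1) * ((p.B : ℝ) ^ 2 * L)) / x.c.I.h with hC
  have hC0 : 0 ≤ C := by rw [hC]; positivity
  have hwin : ∀ b0 ∈ x.bs, (x.win oo b0).av T (fun k z => if p.k1 ≤ k then ∑ d ∈ range (p.B + 1),
      yS ((x.win oo b0).R k z) ((x.win oo b0).nm k z) p.B ((x.win oo b0).bS p.fp k) ((x.win oo b0).Vs p.fp k z)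
        ((x.win oo b0).Xs p.fp k z) μ o d Y /
        F2b ((x.win oo b0).R k z) ((x.win oo b0).nm k z) p.B μ K' d else 0) ≤ T * C := by
    intro b0 hb0
    rw [x.mem_bs] at hb0
    set w := x.win oo b0 with hw
    unfold Win.av
    have h1 : ∀ k ∈ range T, w.Q1.ex (fun ω => if good k (w.Z k ω) then (if p.k1 ≤ k then ∑ d ∈ range (p.B + 1),
      yS (w.R k (w.Z k ω)) (w.nm k (w.Z k ω)) p.B (w.bS p.fp k) (w.Vs p.fp k (w.Z k ω)) (w.Xs p.fp k (w.Z k ω)) μ o d
        Y / F2b (w.R k (w.Z k ω)) (w.nm k (w.Z k ω)) p.B μ K' d else 0) else 0) ≤ C := by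
      intro k _
      have h2 : ∀ ω, 0 < w.Q1.w ω → (if good k (w.Z k ω) then (if p.k1 ≤ k then ∑ d ∈ range (p.B + 1),
        yS (w.R k (w.Z k ω)) (w.nm k (w.Z k ω)) p.B (w.bS p.fp k) (w.Vs p.fp k (w.Z k ω)) (w.Xs p.fp k (w.Z k ω)) μ o d
        Y / F2b (w.R k (w.Z k ω)) (w.nm k (w.Z k ω)) p.B μ K' d else 0) else 0) ≤ C := by
        intro ω hω
        split_ifs with h1 h2
        · have h3 : ∀ d ∈ range (p.B + 1), yS (w.R k (w.Z k ω)) (w.nm k (w.Z k ω)) p.B (w.bS p.fp k) (w.Vs p.fp k (w.Z k ω))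
              (w.Xs p.fp k (w.Z k ω)) μ o d Y / F2b (w.R k (w.Z k ω)) (w.nm k (w.Z k ω)) p.B μ K' d ≤
              (A0 + 1) * ((p.B : ℝ) ^ 2 * L) / x.c.I.h := by
            intro d _
            have hz : 0 < w.Q1.pr (w.Z k) (w.Z k ω) := w.Q1.pr_pos _ hω
            have h3 : yS (w.R k (w.Z k ω)) (w.nm k (w.Z k ω)) p.B (w.bS p.fp k) (w.Vs p.fp k (w.Z k ω)) (w.Xs p.fp k (w.Z k ω)) μ o d
                Y ≤ (((range (x.c.I.ha + 1)).filter fun a => a ∉ w.Vs p.fp k (w.Z k ω) ∧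
                  a ∉ w.Xs p.fp k (w.Z k ω) ∧ Y a).card : ℝ) * (p.B * L) := by
              rw [hL, ← x.em]
              exact yS_le w (x.ho oo b0) p.fp hz h1 (o := o) (d := d) Y hμ x.eB hb0.2 hr
            have h4 : (x.c.I.h : ℝ) / p.B ≤ F2b (w.R k (w.Z k ω)) (w.nm k (w.Z k ω)) p.B μ K' d := by
              unfold F2b
              rw [R_h]
              have h5 : 0 ≤ K' * ((d : ℝ) + 1) ^ 2 * ((w.R k (w.Z k ω)).m + μ + 1) * q2 (μ / 8) *
                  ((w.R k (w.Z k ω)).n + (w.nm k (w.Z k ω)).J + 1) := by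
                have := Vale.Agent.P127.U.CellD.q2_pos (μ / 8)
                positivity
              have h6 : ((x.win oo b0).c.I.h : ℝ) = x.c.I.h := rfl
              rw [h6]
              linarith
            have h5 := F2b_pos (R := w.R k (w.Z k ω)) (p := w.nm k (w.Z k ω)) (B := p.B) (μ := μ) (d := d) hK'
            have h6 : (((range (x.c.I.ha + 1)).filter fun a => a ∉ w.Vs p.fp k (w.Z k ω) ∧
                  a ∉ w.Xs p.fp k (w.Z k ω) ∧ Y a).card : ℝ) ≤ A0 + 1 := by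
              have h7 : ((range (x.c.I.ha + 1)).filter fun a => a ∉ w.Vs p.fp k (w.Z k ω) ∧
                  a ∉ w.Xs p.fp k (w.Z k ω) ∧ Y a).card ≤ A0 + 1 := by
                refine (Finset.card_le_card (t := range (A0 + 1)) fun a ha' => ?_).trans (Finset.card_range _).le
                rw [Finset.mem_filter] at ha'
                rw [Finset.mem_range]
                exact Nat.lt_succ_of_le (hY a ha'.2.2.2)
              exact_mod_cast h7
            have h7 : yS (w.R k (w.Z k ω)) (w.nm k (w.Z k ω)) p.B (w.bS p.fp k) (w.Vs p.fp k (w.Z k ω)) (w.Xs p.fp k (w.Z k ω)) μ o d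
                Y ≤ (A0 + 1) * (p.B * L) := h3.trans (mul_le_mul_of_nonneg_right h6 (by positivity))
            rcases Nat.eq_zero_or_pos p.B with hB0 | hB0
            · have h8 : (p.B : ℝ) = 0 := by
                rw [hB0]; norm_num
              rw [h8, zero_mul, mul_zero] at h7
              exact (div_nonpos_of_nonpos_of_nonneg h7 h5.le).trans (by positivity)
            · have hBr : (0 : ℝ) < p.B := by exact_mod_cast hB0
              have h8 : 0 < (x.c.I.h : ℝ) / p.B := by positivity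
              refine (div_le_div_of_nonneg_left yS_nonneg h8 h4).trans ?_
              refine (div_le_div_of_nonneg_right h7 h8.le).trans (le_of_eq ?_)
              field_simp
          refine (Finset.sum_le_sum h3).trans (le_of_eq ?_)
          rw [Finset.sum_const, Finset.card_range, nsmul_eq_mul, hC]
          push_cast
          ring
        · exact hC0
        · exact hC0
      refine (w.Q1.ex_mono h2).trans ?_
      rw [Law.ex_const]
    refine (Finset.sum_le_sum h1).trans (le_of_eq ?_)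
    rw [Finset.sum_const, Finset.card_range, nsmul_eq_mul]
  unfold Ctx.mean
  refine (Finset.sum_le_sum hwin).trans ?_
  rw [Finset.sum_const, nsmul_eq_mul]
  exact mul_le_mul_of_nonneg_right (by exact_mod_cast card_bs x) (mul_nonneg (Nat.cast_nonneg _) hC0)

/-- **the low levels of the row [S]** -/
theorem low_row (oo : Oo) (A0 T : ℕ) {μ : ℕ} (o : Fin 7 → ℝ) {K' : ℝ} (hK' : 0 < K') (hμ : μ ≤ p.B)
    (hr : 8 * μ ≤ x.c.I.rs) (ha : 1 ≤ x.c.I.ha) :
    x.mean oo T (fun w k z => if p.k1 ≤ k then ∑ d ∈ range (p.B + 1),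
      yS (w.R k z) (w.nm k z) p.B (w.bS p.fp k) (w.Vs p.fp k z) (w.Xs p.fp k z) μ o d (fun a => a ≤ A0) /
        F2b (w.R k z) (w.nm k z) p.B μ K' d else 0) ≤
      x.nB * (T * (((p.B : ℝ) + 1) * ((A0 + 1) * ((p.B : ℝ) ^ 2 * Real.log (H523.FewS.nFew p.m p.B μ))) / x.c.I.h)) :=
  low_row' x oo A0 T (fun a => a ≤ A0) (fun _ h => h) o hK' hμ hr ha

open Classical in
/-- **young or low levels of the row [S]** -/
theorem yl_row (oo : Oo) (F : ℕ → ℕ) (M' g A0 T : ℕ) {μ : ℕ} (o : Fin 7 → ℝ) {K' : ℝ} (hK' : 0 < K') (hg : g ≤ p.g)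
    (hB : p.B ≤ p.g) (hμ : μ ≤ p.B) (hr : 8 * μ ≤ x.c.I.rs) (ha : 1 ≤ x.c.I.ha) :
    x.mean oo T (fun w k z => if p.k1 ≤ k then ∑ d ∈ range (p.B + 1),
      yS (w.R k z) (w.nm k z) p.B (w.bS p.fp k) (w.Vs p.fp k z) (w.Xs p.fp k z) μ o d
        (fun a => yn w F M' g d p.k1 k z a ∨ a ≤ A0) / F2b (w.R k z) (w.nm k z) p.B μ K' d else 0) ≤
      x.nB * cO p.m p.B μ g M' p.k1 +
      x.nB * (T * (((p.B : ℝ) + 1) * ((A0 + 1) * ((p.B : ℝ) ^ 2 * Real.log (H523.FewS.nFew p.m p.B μ))) / x.c.I.h)) := by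
  refine le_trans ?_ (add_le_add (old_row x oo F M' g T o hK' hg hB hμ hr ha) (low_row x oo A0 T o hK' hμ hr ha))
  rw [← x.mean_add]
  refine x.mean_mono' fun b0 _ k _ z _ _ => ?_
  split_ifs with h1
  · rw [← Finset.sum_add_distrib]
    refine Finset.sum_le_sum fun d _ => ?_
    rw [← add_div]
    exact div_le_div_of_nonneg_right (yS_or_le _ _) (F2b_pos hK').le
  · norm_num

end row

end Vale.Agent.P106.U.H715.OldS
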