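import Vale.Agent.P106.U.H339.XsC
import Vale.Agent.P106.U.H565.PF2
import Vale.Agent.P106.U.H661.Age

/-!
# P106 / U / H715 : the index of the row [S] (helper661's [S4]; helper715)

Window `W` of levels, caps `x k`, second paths `R k v`, `F v`, bits `bt j`:
`kapN k = ∑_(v ∈ W) (R k v + min (x k + R k v + M - F v) (2 M)) + #{j ≤ k : bt j = false}`.

* `kapN_mono`; **`plateau`** : `kapN (k+t) = kapN k` gives: same `R` on `W`, no change of the regime with margin `M`, no new false bit;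
* **`card_old`** : at most `K1 #W 2 M` caps are `kapN`-young and `R`-old with true bits;
* over `c : C0` : `rho`, `kap`, `fn_rho`, `fn_kap`, `mono_rho`, `mono_kap`, `kap_plateau`, `card_kap`,
  **`old_of`** : a level outside 661's `Vs`, `Xs` is `rho`-old.
-/

set_option autoImplicit false

namespace Vale.Agent.P106.U.H715.KapS

open Finset Vale.Agent.P127 Vale.Agent.P127.Stk Vale.Agent.P127.U Vale.Agent.P106.W
open Vale.Agent.P106.U Vale.Agent.P106.U.H449 Vale.Agent.P106.U.H565 Vale.Agent.P106.U.H339W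
open Vale.Agent.P106.U.H661 Vale.Agent.P106.U.H661.Age

/-! ### one point -/

section one

/-- the height over `F - M`, truncated at `2 M` -/
def tr (F : ℕ → ℕ) (M x r v : ℕ) : ℕ := min (x + r + M - F v) (2 * M)

/-- number of the false bits -/
def bf (bt : ℕ → Bool) (k : ℕ) : ℕ := ((range (k + 1)).filter fun j => bt j = false).card

/-- sum of the depths over the window -/
def rhoN (W : Finset ℕ) (R : ℕ → ℕ → ℕ) (k : ℕ) : ℕ := ∑ v ∈ W, R k v

/-- sum of the truncated heights over the window -/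
def sgN (W : Finset ℕ) (R : ℕ → ℕ → ℕ) (F : ℕ → ℕ) (x : ℕ → ℕ) (M k : ℕ) : ℕ := ∑ v ∈ W, tr F M (x k) (R k v) v

/-- **the index** -/
def kapN (W : Finset ℕ) (R : ℕ → ℕ → ℕ) (F : ℕ → ℕ) (x : ℕ → ℕ) (M : ℕ) (bt : ℕ → Bool) (k : ℕ) : ℕ :=
  ∑ v ∈ W, (R k v + tr F M (x k) (R k v) v) + bf bt k

variable {W : Finset ℕ} {R : ℕ → ℕ → ℕ} {F : ℕ → ℕ} {x : ℕ → ℕ} {M : ℕ} {bt : ℕ → Bool}

theorem kapN_eq (k : ℕ) : kapN W R F x M bt k = rhoN W R k + sgN W R F x M k + bf bt k := by
  unfold kapN rhoN sgN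
  rw [Finset.sum_add_distrib]

theorem tr_mono {x x' r r' v : ℕ} (h : x + r ≤ x' + r') : tr F M x r v ≤ tr F M x' r' v :=
  min_le_min_right _ (by omega)

theorem bf_mono : Monotone (bf bt) := fun k k' h =>
  Finset.card_le_card (Finset.filter_subset_filter _ fun j hj => by
    rw [Finset.mem_range] at hj ⊢
    omega)

theorem rhoN_mono (hR : ∀ v ∈ W, Monotone fun k => R k v) : Monotone (rhoN W R) := fun _ _ h =>
  Finset.sum_le_sum fun v hv => hR v hv h

theorem sgN_mono (hR : ∀ v ∈ W, Monotone fun k => R k v) (hx : Monotone x) : Monotone (sgN W R F x M) := fun _ _ h =>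
  Finset.sum_le_sum fun v hv => tr_mono (Nat.add_le_add (hx h) (hR v hv h))

theorem kapN_mono (hR : ∀ v ∈ W, Monotone fun k => R k v) (hx : Monotone x) : Monotone (kapN W R F x M bt) := by
  intro k k' h
  rw [kapN_eq, kapN_eq]
  exact Nat.add_le_add (Nat.add_le_add (rhoN_mono hR h) (sgN_mono hR hx h)) (bf_mono h)

theorem sgN_le (k : ℕ) : sgN W R F x M k ≤ W.card * (2 * M) := by
  unfold sgN
  refine (Finset.sum_le_card_nsmul W _ (2 * M) fun v _ => min_le_right _ _).trans ?_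
  rw [smul_eq_mul]

/-- the three parts of an equality of the indices -/
theorem parts (hR : ∀ v ∈ W, Monotone fun k => R k v) (hx : Monotone x) {k k' : ℕ} (h : k ≤ k')
    (e : kapN W R F x M bt k' = kapN W R F x M bt k) :
    rhoN W R k' = rhoN W R k ∧ sgN W R F x M k' = sgN W R F x M k ∧ bf bt k' = bf bt k := by
  have h1 := rhoN_mono hR h
  have h2 := sgN_mono (F := F) (M := M) hR hx h
  have h3 := bf_mono (bt := bt) h
  rw [kapN_eq, kapN_eq] at e
  omega

/-- equal sums of the depths: equal depths -/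
theorem eq_of_rho (hR : ∀ v ∈ W, Monotone fun k => R k v) {k k' : ℕ} (h : k ≤ k') (e : rhoN W R k' = rhoN W R k)
    {v : ℕ} (hv : v ∈ W) : R k' v = R k v := by
  have h1 := (Finset.sum_eq_sum_iff_of_le fun v hv => hR v hv h).1 e.symm
  exact (h1 v hv).symm

theorem eq_of_sg (hR : ∀ v ∈ W, Monotone fun k => R k v) (hx : Monotone x) {k k' : ℕ} (h : k ≤ k')
    (e : sgN W R F x M k' = sgN W R F x M k) {v : ℕ} (hv : v ∈ W) : tr F M (x k') (R k' v) v = tr F M (x k) (R k v) v := by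
  have h1 := (Finset.sum_eq_sum_iff_of_le fun v hv =>
    (tr_mono (Nat.add_le_add (hx h) (hR v hv h)) : tr F M (x k) (R k v) v ≤ tr F M (x k') (R k' v) v)).1 e.symm
  exact (h1 v hv).symm

/-- no new false bit -/
theorem bits_of_bf {k k' : ℕ} (h : k ≤ k') (e : bf bt k' = bf bt k) {j : ℕ} (hj : k < j) (hj' : j ≤ k') : bt j = true := by
  by_contra hc
  rw [Bool.not_eq_true] at hc
  have h1 : ((range (k + 1)).filter fun j => bt j = false) = (range (k' + 1)).filter fun j => bt j = false :=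
    Finset.eq_of_subset_of_card_le (Finset.filter_subset_filter _ fun j hj => by
      rw [Finset.mem_range] at hj ⊢
      omega) e.le
  have h2 : j ∈ (range (k + 1)).filter fun j => bt j = false := by
    rw [h1, Finset.mem_filter, Finset.mem_range]
    exact ⟨by omega, hc⟩
  rw [Finset.mem_filter, Finset.mem_range] at h2
  omega

/-- **plateau** -/
theorem plateau (hR : ∀ v ∈ W, Monotone fun k => R k v) (hx : Monotone x) (hM : 1 ≤ M) {k k' : ℕ} (h : k ≤ k')
    (hs : x k + 1 ≤ x k') (e : kapN W R F x M bt k' = kapN W R F x M bt k) :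
    (∀ v ∈ W, R k' v = R k v ∧ (x k' + R k v + M ≤ F v ∨ F v + M ≤ x k + R k v)) ∧
      (∀ j, k < j → j ≤ k' → bt j = true) := by
  obtain ⟨e1, e2, e3⟩ := parts hR hx h e
  refine ⟨fun v hv => ?_, fun j hj hj' => bits_of_bf h e3 hj hj'⟩
  have h1 := eq_of_rho hR h e1 hv
  have h2 := eq_of_sg hR hx h e2 hv
  refine ⟨h1, ?_⟩
  rw [h1] at h2
  unfold tr at h2
  rcases min_cases (x k' + R k v + M - F v) (2 * M) with ⟨a1, a2⟩ | ⟨a1, a2⟩ <;>
    rcases min_cases (x k + R k v + M - F v) (2 * M) with ⟨b1, b2⟩ | ⟨b1, b2⟩ <;> omega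

/-- a monotone sequence bounded by `C` has at most `C` jumps -/
theorem card_jump {σ : ℕ → ℕ} (hσ : Monotone σ) {C : ℕ} (hC : ∀ k, σ k ≤ C) (K : ℕ) :
    ((range K).filter fun j => 1 ≤ j ∧ σ (j - 1) ≠ σ j).card ≤ C := by
  have h : ∀ K, ((range (K + 1)).filter fun j => 1 ≤ j ∧ σ (j - 1) ≠ σ j).card ≤ σ K := by
    intro K
    induction K with
    | zero =>
      rw [Finset.filter_eq_empty_iff.2]
      · simp
      · intro j hj
        rw [Finset.mem_range] at hj
        omega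
    | succ K ih =>
      rw [Finset.range_add_one, Finset.filter_insert]
      have h1 := hσ (Nat.le_succ K)
      rw [Nat.succ_eq_add_one] at h1
      split_ifs with h2
      · rw [Finset.card_insert_of_notMem (by simp)]
        rw [Nat.add_sub_cancel] at h2
        have := h2.2
        omega
      · omega
  cases K with
  | zero => simp
  | succ K => exact (h K).trans (hC K)

/-- age: the last change -/
theorem age_spec (f : ℕ → ℕ) (k : ℕ) : age f k ≤ k ∧ (∀ j, k - age f k ≤ j → j ≤ k → f j = f k) ∧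
    (age f k = k ∨ f (k - age f k - 1) ≠ f (k - age f k)) := by
  induction k with
  | zero =>
    have h0 : age f 0 = 0 := rfl
    rw [h0]
    refine ⟨le_rfl, fun j _ hj => ?_, Or.inl rfl⟩
    have : j = 0 := by omega
    rw [this]
  | succ k ih =>
    obtain ⟨i1, i2, i3⟩ := ih
    have h1 : age f (k + 1) = if f (k + 1) = f k then age f k + 1 else 0 := rfl
    rw [h1]
    split_ifs with h2
    · refine ⟨by omega, fun j hj hj' => ?_, ?_⟩
      · rcases Nat.lt_or_ge k j with h3 | h3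
        · have : j = k + 1 := by omega
          rw [this]
        · rw [i2 j (by omega) h3, h2]
      · rcases i3 with h3 | h3
        · left
          omega
        · right
          have e1 : k + 1 - (age f k + 1) = k - age f k := by omega
          rw [e1]
          exact h3
    · refine ⟨Nat.zero_le _, fun j hj hj' => ?_, ?_⟩
      · have : j = k + 1 := by omega
        rw [this]
      · right
        rw [Nat.sub_zero, Nat.add_sub_cancel]
        exact fun h => h2 h.symm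

/-- old: constant on the last `K1` caps -/
theorem const_of_age (f : ℕ → ℕ) {k K1 : ℕ} (h : K1 ≤ age f k) {j : ℕ} (h1 : k ≤ j + K1) (h2 : j ≤ k) : f j = f k :=
  (age_spec f k).2.1 j (by have := (age_spec f k).1; omega) h2

theorem le_age (f : ℕ → ℕ) (hf : Monotone f) {k K1 : ℕ} (hk : K1 ≤ k) (h : f (k - K1) = f k) : K1 ≤ age f k := by
  by_contra hc
  obtain ⟨i1, i2, i3⟩ := age_spec f k
  rcases i3 with h3 | h3
  · omega
  · refine h3 ?_
    have e1 : f (k - age f k) = f k := i2 _ le_rfl (Nat.sub_le _ _)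
    have e2 : f (k - K1) ≤ f (k - age f k - 1) := hf (by omega)
    have e3 : f (k - age f k - 1) ≤ f (k - age f k) := hf (by omega)
    omega

/-- **`kapN`-young and `R`-old with true bits: few caps** -/
theorem card_old (hR : ∀ v ∈ W, Monotone fun k => R k v) (hx : Monotone x) (K1 K : ℕ) :
    ((range K).filter fun k => K1 ≤ age (rhoN W R) k ∧ (∀ j ≤ k, bt j = true) ∧ age (kapN W R F x M bt) k < K1).card ≤
      K1 * (W.card * (2 * M)) := by
  classical
  set J := (range K).filter fun j => 1 ≤ j ∧ sgN W R F x M (j - 1) ≠ sgN W R F x M j with hJ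
  have h1 : J.card ≤ W.card * (2 * M) := card_jump (sgN_mono hR hx) (fun k => sgN_le k) K
  have h2 : ((range K).filter fun k => K1 ≤ age (rhoN W R) k ∧ (∀ j ≤ k, bt j = true) ∧
      age (kapN W R F x M bt) k < K1) ⊆ (J ×ˢ range K1).image fun p => p.1 + p.2 := by
    intro k hk
    rw [Finset.mem_filter, Finset.mem_range] at hk
    obtain ⟨hkK, h3, h4, h5⟩ := hk
    obtain ⟨i1, i2, i3⟩ := age_spec (kapN W R F x M bt) k
    have r1 := (age_spec (rhoN W R) k).1
    set t := age (kapN W R F x M bt) k with ht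
    have h6 : kapN W R F x M bt (k - t - 1) ≠ kapN W R F x M bt (k - t) := by
      rcases i3 with h | h
      · omega
      · exact h
    have e1 : rhoN W R (k - t - 1) = rhoN W R k := const_of_age _ h3 (by omega) (by omega)
    have e2 : rhoN W R (k - t) = rhoN W R k := const_of_age _ h3 (by omega) (by omega)
    have b0 : ∀ j ≤ k, bf bt j = 0 := by
      intro j hj
      unfold bf
      rw [Finset.card_eq_zero, Finset.filter_eq_empty_iff]
      intro i hi
      rw [Finset.mem_range] at hi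
      rw [h4 i (by omega)]
      decide
    rw [kapN_eq, kapN_eq, e1, e2, b0 _ (by omega), b0 _ (by omega)] at h6
    refine Finset.mem_image.2 ⟨(k - t, t), ?_, by simp only; omega⟩
    rw [Finset.mem_product, hJ, Finset.mem_filter, Finset.mem_range, Finset.mem_range]
    exact ⟨⟨by omega, by omega, fun h => h6 (by simp only at h; rw [h])⟩, h5⟩
  refine (Finset.card_le_card h2).trans (Finset.card_image_le.trans ?_)
  rw [Finset.card_product, Finset.card_range, Nat.mul_comm]
  exact Nat.mul_le_mul_left _ h1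

end one

/-! ### over the run -/

section run

variable {Ω : Type} [Fintype Ω] (c : C0 Ω) (hm : 3 ≤ c.I.m) (cc : ℝ) (Q : Law Ω) (s b0 : ℕ)

/-- the second path of the cap number `k` (levels above `ha` = `ha`) -/
noncomputable def Rk (k v : ℕ) (ω : Ω) : ℕ := c.RT hm cc Q (b0 + k * s) (min v c.I.ha) ω

/-- sum of the second paths over the window `[a - g, a + d]` -/
noncomputable def rho (a g d k : ℕ) (ω : Ω) : ℕ := rhoN (Icc (a - g) (a + d)) (fun k v => Rk c hm cc Q s b0 k v ω) k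

/-- **the index of the row [S]** -/
noncomputable def kap (bt : Law Ω → ℕ → ℕ → Ω → Bool) (F : ℕ → ℕ) (M a g d k : ℕ) (ω : Ω) : ℕ :=
  kapN (Icc (a - g) (a + d)) (fun k v => Rk c hm cc Q s b0 k v ω) F (fun k => b0 + k * s) M (fun j => bt Q b0 j ω) k

variable {c hm cc Q s b0} {E : List (Lt 2)} {x : ℝ} {bt : Law Ω → ℕ → ℕ → Ω → Bool} {F : ℕ → ℕ} {M a g d : ℕ}

theorem rk_mono (cn : Cn c.rule c.P Q c.I.pm.n E x) (v : ℕ) (ω : Ω) : Monotone fun k => Rk c hm cc Q s b0 k v ω :=
  fun _ _ h => C0.rt_mono cn (Nat.add_le_add_left (Nat.mul_le_mul_right s h) b0) ω _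

theorem x_mono (s b0 : ℕ) : Monotone fun k => b0 + k * s := fun _ _ h =>
  Nat.add_le_add_left (Nat.mul_le_mul_right s h) b0

theorem mono_rho (cn : Cn c.rule c.P Q c.I.pm.n E x) (a g d : ℕ) (ω : Ω) : Monotone fun k => rho c hm cc Q s b0 a g d k ω :=
  rhoN_mono fun v _ => rk_mono cn v ω

theorem mono_kap (cn : Cn c.rule c.P Q c.I.pm.n E x) (bt : Law Ω → ℕ → ℕ → Ω → Bool) (F : ℕ → ℕ) (M a g d : ℕ) (ω : Ω) :
    Monotone fun k => kap c hm cc Q s b0 bt F M a g d k ω :=
  kapN_mono (fun v _ => rk_mono cn v ω) (x_mono s b0)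

/-- the word determines the second paths -/
theorem rk_fn {k j : ℕ} (hj : j ≤ k) {ω ω' : Ω} (e : c.zW hm cc s bt Q b0 k ω = c.zW hm cc s bt Q b0 k ω') (v : ℕ) :
    Rk c hm cc Q s b0 j v ω = Rk c hm cc Q s b0 j v ω' := by
  have h1 := G480.ZwC_rt (m := c.I.m) (d0 := c.d0) (e := c.rule) (P := c.P) (n := c.I.pm.n) (A := c.I.ha) (hm := hm) (c := cc)
    (F := c.Fy) (Q := Q) (s := s) (bt := bt) (b0 := b0) (ω := ω) (z := c.zW hm cc s bt Q b0 k ω) rfl hj
    (min_le_right v c.I.ha)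
  have h2 := G480.ZwC_rt (m := c.I.m) (d0 := c.d0) (e := c.rule) (P := c.P) (n := c.I.pm.n) (A := c.I.ha) (hm := hm) (c := cc)
    (F := c.Fy) (Q := Q) (s := s) (bt := bt) (b0 := b0) (ω := ω') (z := c.zW hm cc s bt Q b0 k ω') rfl hj
    (min_le_right v c.I.ha)
  unfold Rk C0.RT
  rw [h1, h2, e]

/-- the word determines the bits -/
theorem bt_fn {k j : ℕ} (hj : j ≤ k) {ω ω' : Ω} (e : c.zW hm cc s bt Q b0 k ω = c.zW hm cc s bt Q b0 k ω') :
    bt Q b0 j ω = bt Q b0 j ω' := by
  have h1 := G480.ZwC_bit (m := c.I.m) (d0 := c.d0) (e := c.rule) (P := c.P) (n := c.I.pm.n) (A := c.I.ha) (hm := hm) (c := cc)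
    (F := c.Fy) (Q := Q) (s := s) (bt := bt) (b0 := b0) (ω := ω) (z := c.zW hm cc s bt Q b0 k ω) rfl hj
  have h2 := G480.ZwC_bit (m := c.I.m) (d0 := c.d0) (e := c.rule) (P := c.P) (n := c.I.pm.n) (A := c.I.ha) (hm := hm) (c := cc)
    (F := c.Fy) (Q := Q) (s := s) (bt := bt) (b0 := b0) (ω := ω') (z := c.zW hm cc s bt Q b0 k ω') rfl hj
  rw [h1, h2, e]

/-- **(a)** the sum of the depths is a function of the word -/
theorem fn_rho (P : Law Ω) (a g d k : ℕ) : Fn P (rho c hm cc Q s b0 a g d k) (c.zW hm cc s bt Q b0 k) := by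
  intro ω ω' _ _ e
  unfold rho rhoN
  exact Finset.sum_congr rfl fun v _ => rk_fn le_rfl e v

/-- **(a)** the index is a function of the word -/
theorem fn_kap (P : Law Ω) (F : ℕ → ℕ) (M a g d k : ℕ) :
    Fn P (kap c hm cc Q s b0 bt F M a g d k) (c.zW hm cc s bt Q b0 k) := by
  intro ω ω' _ _ e
  unfold kap kapN
  congr 1
  · exact Finset.sum_congr rfl fun v _ => by simp only [rk_fn le_rfl e v]
  · unfold bf
    congr 1
    refine Finset.filter_congr fun j hj => ?_
    rw [Finset.mem_range] at hj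
    simp only [bt_fn (by omega : j ≤ k) e]

/-- the words are nested -/
theorem fn_zW (P : Law Ω) {k k' : ℕ} (h : k ≤ k') : Fn P (c.zW hm cc s bt Q b0 k) (c.zW hm cc s bt Q b0 k') :=
  fun _ _ _ _ e => G480.ZwC_nest h e

/-- **(b)** the plateau -/
theorem kap_plateau (cn : Cn c.rule c.P Q c.I.pm.n E x) (hM : 1 ≤ M) {k t : ℕ} (ht : 1 ≤ t * s) {ω : Ω}
    (e : kap c hm cc Q s b0 bt F M a g d (k + t) ω = kap c hm cc Q s b0 bt F M a g d k ω) :
    (∀ v, a - g ≤ v → v ≤ a + d → v ≤ c.I.ha →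
      c.RT hm cc Q (b0 + (k + t) * s) v ω = c.RT hm cc Q (b0 + k * s) v ω ∧
      (b0 + (k + t) * s + c.RT hm cc Q (b0 + k * s) v ω + M ≤ F v ∨ F v + M ≤ b0 + k * s + c.RT hm cc Q (b0 + k * s) v ω)) ∧
    ((∀ j ≤ k, bt Q b0 j ω = true) → ∀ j ≤ k + t, bt Q b0 j ω = true) := by
  have h1 := plateau (W := Icc (a - g) (a + d)) (R := fun k v => Rk c hm cc Q s b0 k v ω) (F := F)
    (x := fun k => b0 + k * s) (M := M) (bt := fun j => bt Q b0 j ω) (fun v _ => rk_mono cn v ω) (x_mono s b0) hM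
    (Nat.le_add_right k t) (by show b0 + k * s + 1 ≤ b0 + (k + t) * s; rw [Nat.add_mul]; omega) e
  refine ⟨fun v h2 h3 h4 => ?_, fun h2 j hj => ?_⟩
  · have h5 := h1.1 v (Finset.mem_Icc.2 ⟨h2, h3⟩)
    simp only [Rk, min_eq_left h4] at h5
    exact h5
  · rcases Nat.lt_or_ge k j with h3 | h3
    · exact h1.2 j h3 hj
    · exact h2 j h3

/-- **(c)** `kap`-young and `rho`-old caps with true bits -/
theorem card_kap (cn : Cn c.rule c.P Q c.I.pm.n E x) (bt : Law Ω → ℕ → ℕ → Ω → Bool) (F : ℕ → ℕ) (M a g d K1 K : ℕ) (ω : Ω) :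
    ((range K).filter fun k => K1 ≤ ag (rho c hm cc Q s b0 a g d) k ω ∧ (∀ j ≤ k, bt Q b0 j ω = true) ∧
      ag (kap c hm cc Q s b0 bt F M a g d) k ω < K1).card ≤ K1 * ((g + d + 1) * (2 * M)) := by
  refine (card_old (W := Icc (a - g) (a + d)) (R := fun k v => Rk c hm cc Q s b0 k v ω) (F := F)
    (x := fun k => b0 + k * s) (M := M) (bt := fun j => bt Q b0 j ω) (fun v _ => rk_mono cn v ω) (x_mono s b0) K1 K).trans ?_
  refine Nat.mul_le_mul_left _ (Nat.mul_le_mul_right _ ?_)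
  rw [Nat.card_Icc]
  omega

/-- **(d)** a level outside `Vs` and `Xs` is `rho`-old -/
theorem old_of (cn : Cn c.rule c.P Q c.I.pm.n E x) {kk K1 D0 g' : ℕ} {ω : Ω} {e : ℕ → ℕ → ℕ}
    (he : c.Zr hm cc s Q b0 kk ω = e) (hk : K1 ≤ kk) (ha : a ≤ c.I.ha) (hg : g ≤ g') (hd : d ≤ g') {RI : ℕ → ℕ}
    (hV : a ∉ Yng.Vs (RCz c.I.ha kk e) RI c.I.ha D0 g' (kk - K1) kk)
    (hX : a ∉ Yng.Xs (RCz c.I.ha kk e) RI c.I.ha D0 g' (kk - K1) kk) : K1 ≤ ag (rho c hm cc Q s b0 a g d) kk ω := by
  refine le_age _ (mono_rho cn a g d ω) hk ?_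
  show rhoN _ _ _ = rhoN _ _ _
  unfold rhoN
  refine Finset.sum_congr rfl fun v hv => ?_
  rw [Finset.mem_Icc] at hv
  -- `a ∉ yg2`
  have h1 : a ∉ Yng.yg2 (RCz c.I.ha kk e) c.I.ha g' (kk - K1) kk := fun h =>
    hX (Finset.mem_sdiff.2 ⟨h, hV⟩)
  unfold Yng.yg2 Yng.ch at h1
  rw [Finset.mem_filter, Finset.mem_range] at h1
  have h2 : RCz c.I.ha kk e (kk - K1) (min v c.I.ha) = RCz c.I.ha kk e kk (min v c.I.ha) := by
    by_contra hc
    exact h1 ⟨by omega, min v c.I.ha, min_le_right _ _, by omega, by omega, hc⟩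
  rw [rcz he (Nat.sub_le _ _) (min_le_right _ _), rcz he le_rfl (min_le_right _ _)] at h2
  exact h2

end run

end Vale.Agent.P106.U.H715.KapS
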