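import Vale.Agent.P106.U.H61.PLem
import Vale.Agent.P106.U.H61.Reg
import Vale.Agent.P106.U.H523.FewS
import Vale.Agent.P106.U.H715.KapS

/-!
# P106 / U / H715 : row [S], the young caps of the old levels (helper715)

* `kz w F M a g d z j` : the index `KapS.kap` read in the value `z` of the word (`kz_eq`, `age_kz`);  `yn` : its age at the cap `k` is
  `< k1`.
* `card_yn` : few caps are young and outside `Vs`, `Xs`.
* `yS` : the sum of row [S] over the steps whose level satisfies `Y`;  `yS_split`;  `yS_le` : at a good value of the word.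
* **`old_row`** : the mean of the young part of the costs `cS`.
-/

set_option autoImplicit false

namespace Vale.Agent.P106.U.H715.OldS

open Finset Vale.Agent.P127 Vale.Agent.P127.Stk Vale.Agent.P127.U Vale.Agent.P106.W
open Vale.Agent.P127.U.CellD (q2)
open Vale.Agent.P106.U Vale.Agent.P106.U.H449 Vale.Agent.P106.U.H565 Vale.Agent.P106.U.H339W
open Vale.Agent.P106.U.H661 Vale.Agent.P106.U.H661.Age
open Vale.Agent.P106.U.H712.Fam (Win Vl Pl)
open Vale.Agent.P106.U.H712.Fam.Win (good)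
open Vale.Agent.P106.U.H715.RegC Vale.Agent.P106.U.H715.KapS
open Vale.Agent.P106.U.S3 (Run Pf LTh LDk At' IdO F2b lv)
open Vale.Agent.P106.U.H101 (lc)
open Vale.Agent.P106.U.H61.Ext2 Vale.Agent.P106.U.H61.PS

theorem age_congr {f g : ℕ → ℕ} : ∀ {k : ℕ}, (∀ j ≤ k, f j = g j) → age f k = age g k
  | 0, _ => rfl
  | k + 1, h => by
    show (if f (k + 1) = f k then age f k + 1 else 0) = if g (k + 1) = g k then age g k + 1 else 0
    rw [h (k + 1) le_rfl, h k (Nat.le_succ k), age_congr fun j hj => h j (by omega)]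

theorem exS {Ω ι : Type} [Fintype Ω] (P : Law Ω) (s : Finset ι) (f : ι → Ω → ℝ) :
    ∑ i ∈ s, P.ex (f i) = P.ex (fun ω => ∑ i ∈ s, f i ω) := by
  unfold Law.ex
  rw [Finset.sum_comm]
  exact Finset.sum_congr rfl fun ω _ => (Finset.mul_sum _ _ _).symm

section win

variable {Ω : Type} [Fintype Ω] (w : Win Ω)

/-- **the index of the row [S]**, read in the value of the word -/
noncomputable def kz (F : ℕ → ℕ) (M a g d : ℕ) (z : Vl) (j : ℕ) : ℕ :=
  kapN (Icc (a - g) (a + d)) (fun j v => RCe w.c.I.ha z.2 j v) F (fun j => w.b0 + j * w.s) M z.1 j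

/-- young: the index changed within the last `K1` caps -/
def yn (F : ℕ → ℕ) (M g d K1 k : ℕ) (z : Vl) (a : ℕ) : Prop := age (kz w F M a g d z) k < K1

/-- the index of the word -/
theorem kz_eq {F : ℕ → ℕ} {M a g d k j : ℕ} (hj : j ≤ k) (ω : Ω) :
    kz w F M a g d (w.Z k ω) j = KapS.kap w.c w.hm w.cc w.Q1 w.s w.b0 w.bt F M a g d j ω := by
  have hR : ∀ v, RCe w.c.I.ha (w.Z k ω).2 j v = Rk w.c w.hm w.cc w.Q1 w.s w.b0 j v ω := by
    intro v
    unfold RCe Rk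
    rw [Zr_apply (w.Z_snd k ω).symm hj (min_le_right v w.c.I.ha)]
    omega
  have hb : ∀ i ≤ j, (w.Z k ω).1 i = w.bt w.Q1 w.b0 i ω := fun i hi =>
    (G480.ZwC_bit (z := w.Z k ω) (show w.Z k ω = w.Z k ω from rfl) (hi.trans hj)).symm
  unfold kz KapS.kap kapN
  congr 1
  · exact Finset.sum_congr rfl fun v _ => by simp only [hR]
  · unfold bf
    congr 1
    refine Finset.filter_congr fun i hi => ?_
    rw [Finset.mem_range] at hi
    simp only [hb i (by omega)]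

theorem age_kz (F : ℕ → ℕ) (M a g d k : ℕ) (ω : Ω) : age (kz w F M a g d (w.Z k ω)) k =
    ag (KapS.kap w.c w.hm w.cc w.Q1 w.s w.b0 w.bt F M a g d) k ω := age_congr fun _ hj => kz_eq w hj ω

/-- young in the form of helper661's `ag` -/
theorem yn_iff {F : ℕ → ℕ} {M a g d K1 k : ℕ} (ω : Ω) : yn w F M g d K1 k (w.Z k ω) a ↔
    ag (KapS.kap w.c w.hm w.cc w.Q1 w.s w.b0 w.bt F M a g d) k ω < K1 := by
  unfold yn
  rw [age_kz]

open Classical in
/-- **few caps are young and outside `Vs`, `Xs`** -/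
theorem card_yn (p : H712.Fam.Par) (F : ℕ → ℕ) (M : ℕ) {a g d : ℕ} (ha : a ≤ w.c.I.ha) (hg : g ≤ p.g) (hd : d ≤ p.g) (T : ℕ)
    (ω : Ω) : ((range T).filter fun k => good k (w.Z k ω) ∧ p.k1 ≤ k ∧ a ∉ w.Vs p k (w.Z k ω) ∧ a ∉ w.Xs p k (w.Z k ω) ∧
      yn w F M g d p.k1 k (w.Z k ω) a).card ≤ p.k1 * ((g + d + 1) * (2 * M)) := by
  refine le_trans (Finset.card_le_card fun k hk => ?_)
    (card_kap (hm := w.hm) (cc := w.cc) (Q := w.Q1) (s := w.s) (b0 := w.b0) w.cn w.bt F M a g d p.k1 T ω)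
  rw [Finset.mem_filter, Finset.mem_range] at hk ⊢
  obtain ⟨hkT, h1, h2, h3, h4, h5⟩ := hk
  refine ⟨hkT, ?_, fun j hj => ?_, (yn_iff w ω).1 h5⟩
  · refine old_of w.cn (w.Z_snd k ω).symm h2 ha hg hd h3 fun h => h4 ?_
    exact Finset.mem_union_left _ h
  · rw [G480.ZwC_bit (z := w.Z k ω) (show w.Z k ω = w.Z k ω from rfl) hj]
    exact h1 j hj

end win

/-! ### the sum of the row over some of the levels -/

section place

variable {Ω : Type} [Fintype Ω] {τ υ π : Type}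

open Classical in
/-- the sum of row [S] over the steps whose level satisfies `Y` -/
noncomputable def yS (R : Run Ω τ υ) (p : Run.Num) (B bS : ℕ) (Vs Xs : Finset ℕ) (μ : ℕ) (o : Fin 7 → ℝ) (d : ℕ)
    (Y : ℕ → Prop) : ℝ :=
  ∑ k ∈ (IdO R Vs Xs).filter (fun k => Y (lv R k)), ∑ i ∈ At' R p B d k,
    mi R.Q (LTh (lc R.C μ o) (R.m * R.b1) i) ((lc R.C μ o).cell k bS) (LDk (lc R.C μ o) (R.m * R.b1) k)

theorem yS_nonneg {R : Run Ω τ υ} {p : Run.Num} {B bS : ℕ} {Vs Xs : Finset ℕ} {μ : ℕ} {o : Fin 7 → ℝ} {d : ℕ} {Y : ℕ → Prop} :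
    0 ≤ yS R p B bS Vs Xs μ o d Y :=
  Finset.sum_nonneg fun _ _ => Finset.sum_nonneg fun _ _ => mi_nonneg _ _ _ _

/-- **young and old levels** -/
theorem yS_split (R : Run Ω τ υ) (p : Run.Num) (B bS : ℕ) (Vs Xs : Finset ℕ) (μ : ℕ) (o : Fin 7 → ℝ) (d : ℕ) (Y : ℕ → Prop) :
    sS R p B bS Vs Xs μ o d = yS R p B bS Vs Xs μ o d Y + yS R p B bS Vs Xs μ o d (fun a => ¬ Y a) := by
  classical
  unfold sS yS
  rw [← Finset.sum_filter_add_sum_filter_not (IdO R Vs Xs) (fun k => Y (lv R k))]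
  congr

open Classical in
/-- at most `B` steps of one level have a pair -/
theorem yS_card {D : H823.PathNum.PN} {R : Run Ω τ υ} {p : Run.Num} (H : H823.PathNum.Has D R p) {A B bS : ℕ}
    {Vs Xs : Finset ℕ} {μ : ℕ} {o : Fin 7 → ℝ} {d : ℕ} {Y : ℕ → Prop} {L : ℝ} (hL0 : 0 ≤ L)
    (hA : ∀ k ≤ R.n, lv R k ≤ A)
    (hL : ∀ k i, k ≤ R.n → k < i → i ≤ k + B → i < D.N → D.L.kd i = 0 →
      mi R.Q (LTh (lc R.C μ o) (R.m * R.b1) i) ((lc R.C μ o).cell k bS) (LDk (lc R.C μ o) (R.m * R.b1) k) ≤ L) :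
    yS R p B bS Vs Xs μ o d Y ≤ (((range (A + 1)).filter fun a => a ∉ Vs ∧ a ∉ Xs ∧ Y a).card : ℝ) * (B * L) := by
  have hn : R.n ≤ D.N := by have := H.N; omega
  set S := (IdO R Vs Xs).filter (fun k => Y (lv R k)) with hS
  set S' := S.filter (fun k => (At' R p B d k).Nonempty) with hS'
  have hmem : ∀ k ∈ S, 1 ≤ k ∧ k ≤ R.n ∧ lv R k ∉ Vs ∧ lv R k ∉ Xs ∧ Y (lv R k) := by
    intro k hk
    rw [hS, Finset.mem_filter] at hk
    unfold IdO at hk
    rw [Finset.mem_filter, Finset.mem_Icc] at hk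
    exact ⟨hk.1.1.1, hk.1.1.2, hk.1.2.1, hk.1.2.2, hk.2⟩
  have h1 : yS R p B bS Vs Xs μ o d Y ≤ ∑ k ∈ S, if (At' R p B d k).Nonempty then L else 0 := by
    unfold yS
    refine Finset.sum_le_sum fun k hk => ?_
    obtain ⟨k1, k2, -⟩ := hmem k hk
    have hkN : k ≤ D.N := k2.trans hn
    split_ifs with hne
    · obtain ⟨i, hi⟩ := hne
      have h2 := H61.Reg.At'_sub H (B := B) (d := d) hkN
      have h3 : i = D.L.J (D.L.lev k + d) := Finset.mem_singleton.1 (h2 hi)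
      have h4 : At' R p B d k = {i} := by
        refine Finset.Subset.antisymm ?_ (Finset.singleton_subset_iff.2 hi)
        rw [h3]
        exact h2
      rw [h4, Finset.sum_singleton]
      have h5 := (H61.Reg.at_iff H hkN).1 (Finset.mem_filter.1 hi).2
      refine hL k i k2 h5.2.1 h5.2.2.1 h5.2.2.2 ?_
      rw [h5.1]
      exact D.L.kd_J _
    · rw [Finset.not_nonempty_iff_eq_empty.1 hne, Finset.sum_empty]
  have h2 : ∑ k ∈ S, (if (At' R p B d k).Nonempty then L else 0) = (S'.card : ℝ) * L := by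
    rw [← Finset.sum_filter, Finset.sum_const, nsmul_eq_mul]
  have h3 : S'.card ≤ B * ((range (A + 1)).filter fun a => a ∉ Vs ∧ a ∉ Xs ∧ Y a).card := by
    refine Finset.card_le_mul_card_image_of_maps_to (f := fun k => lv R k) (fun k hk => ?_) B fun a _ => ?_
    · obtain ⟨k1, k2, k3, k4, k5⟩ := hmem k (Finset.mem_filter.1 hk).1
      rw [Finset.mem_filter, Finset.mem_range]
      exact ⟨Nat.lt_succ_of_le (hA k k2), k3, k4, k5⟩
    · have h4 : (S'.filter fun k => lv R k = a) ⊆ Finset.Ico (D.L.J (a + d) - B) (D.L.J (a + d)) := by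
        intro k hk
        rw [Finset.mem_filter] at hk
        obtain ⟨hk, hka⟩ := hk
        rw [hS', Finset.mem_filter] at hk
        obtain ⟨k1, k2, -⟩ := hmem k hk.1
        obtain ⟨i, hi⟩ := hk.2
        have h5 := (H61.Reg.at_iff H (k2.trans hn)).1 (Finset.mem_filter.1 hi).2
        have h6 := H61.Reg.lv_eq H (k2.trans hn)
        rw [← h6, hka] at h5
        rw [Finset.mem_Ico]
        omega
      refine (Finset.card_le_card h4).trans ?_
      rw [Nat.card_Ico]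
      omega
  have h4 : (S'.card : ℝ) ≤ B * (((range (A + 1)).filter fun a => a ∉ Vs ∧ a ∉ Xs ∧ Y a).card : ℝ) := by exact_mod_cast h3
  calc yS R p B bS Vs Xs μ o d Y ≤ (S'.card : ℝ) * L := h1.trans h2.le
    _ ≤ (B * (((range (A + 1)).filter fun a => a ∉ Vs ∧ a ∉ Xs ∧ Y a).card : ℝ)) * L := mul_le_mul_of_nonneg_right h4 hL0
    _ = _ := by ring

end place

/-! ### at a value of the word -/

section cell

variable {Ω : Type} [Fintype Ω] (w : Win Ω)

theorem cv_I (k : ℕ) (z : Vl) : (w.cv k z).I = w.c.I := by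
  classical
  unfold Win.cv
  split_ifs <;> rfl

theorem R_h (k : ℕ) (z : Vl) : (w.R k z).h = w.c.I.h := by
  show (w.cv k z).I.h = w.c.I.h
  rw [cv_I]

theorem R_m (k : ℕ) (z : Vl) : (w.R k z).m = w.c.I.m := by
  show (w.cv k z).I.m = w.c.I.m
  rw [cv_I]

theorem R_b1 (k : ℕ) (z : Vl) : (w.R k z).b1 = w.b0 + k * w.s := by
  classical
  show (w.cv k z).b1 = w.b0 + k * w.s
  unfold Win.cv
  split_ifs <;> rfl

/-- the letter is a function of the closure -/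
theorem cv_HX (k : ℕ) (z : Vl) : (w.cv k z).HX (w.cv_m k z) := by
  classical
  have h : ∀ (z' : Vl) (hz : 0 < w.Q1.pr (w.Z k) z'),
      (w.c.c2 w.hm w.cc w.gd w.cn w.in0 w.hc w.s w.bt w.b0 k z' hz w.oO w.oK w.oG w.oN).HX w.hm := fun z' hz =>
    C1.mk2_hx (c := w.c.c1 w.gd w.cn) fun ω ω' _ _ e a ha => w.Z_rt e le_rfl ha
  have h3 := w.cv_m k z
  show (w.cv k z).HX h3
  revert h3
  by_cases hz : 0 < w.Q1.pr (w.Z k) z
  · rw [w.cv_eq hz]
    exact fun _ => h z hz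
  · have e : w.cv k z = w.c.c2 w.hm w.cc w.gd w.cn w.in0 w.hc w.s w.bt w.b0 k (w.Z k w.pt) (w.Q1.pr_pos _ w.pt_pos)
        w.oO w.oK w.oG w.oN := dif_neg hz
    rw [e]
    exact fun _ => h _ _

/-- the levels -/
theorem lv_le {Rm : ℕ} (ho : w.Ho Rm) {k : ℕ} {z : Vl} (hz : 0 < w.Q1.pr (w.Z k) z) (hg : good k z) {i : ℕ}
    (_hi : i ≤ (w.R k z).n) : lv (w.R k z) i ≤ w.c.I.ha := by
  obtain ⟨Ac, rc, H⟩ := ho.hyp k z hz hg
  have h1 := H428.RunPt.li_le (w.cv k z) i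
  have h2 := (w.cv k z).good.Ab1
  have h3 := (w.cv k z).good.Ab2
  have e : lv (w.R k z) i = (w.cv k z).D.li i := C2.lv_eq H i
  rw [cv_I] at h1 h2 h3
  rw [e]
  omega

open Classical in
/-- **at a good value** -/
theorem yS_le {Rm : ℕ} (ho : w.Ho Rm) (p : H712.Fam.Par) {k : ℕ} {z : Vl} (hz : 0 < w.Q1.pr (w.Z k) z) (hg : good k z)
    {μ : ℕ} {o : Fin 7 → ℝ} {d : ℕ} (Y : ℕ → Prop) (hμ : μ ≤ p.B) (hB : w.c.I.B = p.B) (h8 : 8 * p.B < w.b0)
    (hr : 8 * μ ≤ w.c.I.rs) :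
    yS (w.R k z) (w.nm k z) p.B (w.bS p k) (w.Vs p k z) (w.Xs p k z) μ o d Y ≤
      (((range (w.c.I.ha + 1)).filter fun a => a ∉ w.Vs p k z ∧ a ∉ w.Xs p k z ∧ Y a).card : ℝ) *
        (p.B * Real.log (H523.FewS.nFew w.c.I.m p.B μ)) := by
  obtain ⟨Ac, rc, H⟩ := ho.hyp k z hz hg
  have hm := w.hm
  have hN : (0 : ℝ) ≤ Real.log (H523.FewS.nFew w.c.I.m p.B μ) := Real.log_natCast_nonneg _
  have hH : H823.PathNum.Has (w.cv k z).D (w.R k z) (w.nm k z) := C2.has_erun (hm := w.cv_m k z) H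
  refine yS_card hH hN (fun i hi => lv_le w ho hz hg hi) fun i j hi hij hjB hjN hkd => ?_
  refine (mi_le_hc _ _ _ _).trans ?_
  have h1 := H523.FewS.few_c2_a (μ := μ) (o := o) (b := (w.R k z).m * (w.R k z).b1) (k := i) (i := j) (B := p.B) H (cv_HX w k z)
    hij.le hjB hjN.le hkd (by
      rw [cv_I, hB]
      calc μ ≤ 1 * p.B := by omega
        _ ≤ w.c.I.m * p.B := Nat.mul_le_mul_right _ (by omega)) (by
      rw [R_m, R_b1]
      calc 8 * μ ≤ 1 * (w.b0 + k * w.s) := by omega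
        _ ≤ w.c.I.m * (w.b0 + k * w.s) := Nat.mul_le_mul_right _ (by omega)) (by rw [cv_I]; exact hr)
  rw [cv_I] at h1
  exact hc_le_log _ _ _ _ h1

end cell

/-! ### the row -/

section row

variable {σ : S5.Cst} {cc : ℝ} {J M Md : ℕ} {p : H61.PS.Par} {X0 R0 h0 : ℕ} {Ω : Type} [Fintype Ω]
  (x : Ctx σ cc J M Md p X0 R0 h0 Ω)

theorem card_bs : x.bs.card ≤ x.nB := by
  have h1 : x.bs ⊆ Finset.Ioc 0 x.nB := by
    intro b hb
    rw [x.mem_bs] at hb
    rw [Finset.mem_Ioc]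
    omega
  refine (Finset.card_le_card h1).trans ?_
  rw [Nat.card_Ioc]
  omega

/-- the number -/
noncomputable def cO (m B μ g M k1 : ℕ) : ℝ :=
  ((B : ℝ) + 1) * ((k1 : ℝ) * ((g + B + 1) * (2 * M))) * ((B : ℝ) ^ 2 * Real.log (H523.FewS.nFew m B μ))

open Classical in
/-- **the young part of the row [S]** -/
theorem old_row (oo : Oo) (F : ℕ → ℕ) (M' g T : ℕ) {μ : ℕ} (o : Fin 7 → ℝ) {K' : ℝ} (hK' : 0 < K') (hg : g ≤ p.g) (hB : p.B ≤ p.g)
    (hμ : μ ≤ p.B) (hr : 8 * μ ≤ x.c.I.rs) (ha : 1 ≤ x.c.I.ha) :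
    x.mean oo T (fun w k z => if p.k1 ≤ k then ∑ d ∈ range (p.B + 1),
      yS (w.R k z) (w.nm k z) p.B (w.bS p.fp k) (w.Vs p.fp k z) (w.Xs p.fp k z) μ o d (yn w F M' g d p.k1 k z) /
        F2b (w.R k z) (w.nm k z) p.B μ K' d else 0) ≤ x.nB * cO p.m p.B μ g M' p.k1 := by
  set L : ℝ := Real.log (H523.FewS.nFew p.m p.B μ) with hL
  have hL0 : 0 ≤ L := Real.log_natCast_nonneg _
  have hm3 := x.hm
  have hah := x.good.hah
  have hh1 : x.c.I.ha + 1 ≤ x.c.I.h := by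
    have : 3 * x.c.I.ha ≤ x.c.I.m * x.c.I.ha := Nat.mul_le_mul_right _ hm3
    omega
  have hh0 : (0 : ℝ) < x.c.I.h := by
    have : 0 < x.c.I.h := by omega
    exact_mod_cast this
  -- one window
  have hwin : ∀ b0 ∈ x.bs, (x.win oo b0).av T (fun k z => if p.k1 ≤ k then ∑ d ∈ range (p.B + 1),
      yS ((x.win oo b0).R k z) ((x.win oo b0).nm k z) p.B ((x.win oo b0).bS p.fp k) ((x.win oo b0).Vs p.fp k z)
        ((x.win oo b0).Xs p.fp k z) μ o d (yn (x.win oo b0) F M' g d p.k1 k z) /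
        F2b ((x.win oo b0).R k z) ((x.win oo b0).nm k z) p.B μ K' d else 0) ≤ cO p.m p.B μ g M' p.k1 := by
    intro b0 hb0
    rw [x.mem_bs] at hb0
    set w := x.win oo b0 with hw
    set C : ℝ := (p.B : ℝ) * L * (p.B / x.c.I.h) with hC
    have hC0 : 0 ≤ C := by rw [hC]; positivity
    -- the place
    have hpl : ∀ k < T, ∀ ω, 0 < x.Q1.w ω → (if good k (w.Z k ω) then (if p.k1 ≤ k then ∑ d ∈ range (p.B + 1),
      yS (w.R k (w.Z k ω)) (w.nm k (w.Z k ω)) p.B (w.bS p.fp k) (w.Vs p.fp k (w.Z k ω)) (w.Xs p.fp k (w.Z k ω)) μ o d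
        (yn w F M' g d p.k1 k (w.Z k ω)) / F2b (w.R k (w.Z k ω)) (w.nm k (w.Z k ω)) p.B μ K' d else 0) else 0) ≤
        ∑ d ∈ range (p.B + 1), ∑ a ∈ range (x.c.I.ha + 1), (if (good k (w.Z k ω) ∧ p.fp.k1 ≤ k ∧
          a ∉ w.Vs p.fp k (w.Z k ω) ∧ a ∉ w.Xs p.fp k (w.Z k ω) ∧ yn w F M' g d p.fp.k1 k (w.Z k ω) a) then (1 : ℝ) else 0) * C := by
      intro k _ ω hω
      have hnn : 0 ≤ ∑ d ∈ range (p.B + 1), ∑ a ∈ range (x.c.I.ha + 1), (if (good k (w.Z k ω) ∧ p.fp.k1 ≤ k ∧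
          a ∉ w.Vs p.fp k (w.Z k ω) ∧ a ∉ w.Xs p.fp k (w.Z k ω) ∧ yn w F M' g d p.fp.k1 k (w.Z k ω) a) then (1 : ℝ) else 0) * C :=
        Finset.sum_nonneg fun d _ => Finset.sum_nonneg fun a _ => mul_nonneg (by split_ifs <;> norm_num) hC0
      split_ifs with h1 h2
      · refine Finset.sum_le_sum fun d _ => ?_
        have hz : 0 < w.Q1.pr (w.Z k) (w.Z k ω) := w.Q1.pr_pos _ hω
        have h3 : yS (w.R k (w.Z k ω)) (w.nm k (w.Z k ω)) p.B (w.bS p.fp k) (w.Vs p.fp k (w.Z k ω)) (w.Xs p.fp k (w.Z k ω)) μ o d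
            (yn w F M' g d p.k1 k (w.Z k ω)) ≤ (((range (x.c.I.ha + 1)).filter fun a => a ∉ w.Vs p.fp k (w.Z k ω) ∧
              a ∉ w.Xs p.fp k (w.Z k ω) ∧ yn w F M' g d p.k1 k (w.Z k ω) a).card : ℝ) * (p.B * L) := by
          rw [hL, ← x.em]
          exact yS_le w (x.ho oo b0) p.fp hz h1 (o := o) (d := d) (yn w F M' g d p.k1 k (w.Z k ω)) hμ x.eB hb0.2 hr
        have h4 : (x.c.I.h : ℝ) / p.B ≤ F2b (w.R k (w.Z k ω)) (w.nm k (w.Z k ω)) p.B μ K' d := by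
          unfold F2b
          rw [R_h]
          have h5 : 0 ≤ K' * ((d : ℝ) + 1) ^ 2 * ((w.R k (w.Z k ω)).m + μ + 1) * q2 (μ / 8) *
              ((w.R k (w.Z k ω)).n + (w.nm k (w.Z k ω)).J + 1) := by
            have := Vale.Agent.P127.U.CellD.q2_pos (μ / 8)
            positivity
          have h6 : ((x.win oo b0).c.I.h : ℝ) = x.c.I.h := rfl
          rw [h6]
          linarith
        have h5 := F2b_pos (R := w.R k (w.Z k ω)) (p := w.nm k (w.Z k ω)) (B := p.B) (μ := μ) (d := d) hK'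
        rw [← Finset.sum_mul]
        have h6 : (((range (x.c.I.ha + 1)).filter fun a => a ∉ w.Vs p.fp k (w.Z k ω) ∧ a ∉ w.Xs p.fp k (w.Z k ω) ∧
            yn w F M' g d p.k1 k (w.Z k ω) a).card : ℝ) = ∑ a ∈ range (x.c.I.ha + 1), (if (good k (w.Z k ω) ∧ p.fp.k1 ≤ k ∧
          a ∉ w.Vs p.fp k (w.Z k ω) ∧ a ∉ w.Xs p.fp k (w.Z k ω) ∧ yn w F M' g d p.fp.k1 k (w.Z k ω) a) then (1 : ℝ) else 0) := by
          rw [Finset.card_filter]
          push_cast
          refine Finset.sum_congr rfl fun a _ => ?_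
          have h7 : (good k (w.Z k ω) ∧ p.fp.k1 ≤ k ∧ a ∉ w.Vs p.fp k (w.Z k ω) ∧ a ∉ w.Xs p.fp k (w.Z k ω) ∧
              yn w F M' g d p.fp.k1 k (w.Z k ω) a) ↔ (a ∉ w.Vs p.fp k (w.Z k ω) ∧ a ∉ w.Xs p.fp k (w.Z k ω) ∧
              yn w F M' g d p.k1 k (w.Z k ω) a) := ⟨fun h => h.2.2, fun h => ⟨h1, h2, h⟩⟩
          rw [if_congr h7 rfl rfl]
        rw [← h6]
        rcases Nat.eq_zero_or_pos p.B with hB0 | hB0
        · have h7 : (p.B : ℝ) = 0 := by
            rw [hB0]; norm_num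
          rw [h7, zero_mul, mul_zero] at h3
          exact (div_nonpos_of_nonpos_of_nonneg h3 h5.le).trans (mul_nonneg (Nat.cast_nonneg _) hC0)
        · have hBr : (0 : ℝ) < p.B := by exact_mod_cast hB0
          have h8 : 0 < (x.c.I.h : ℝ) / p.B := by positivity
          refine (div_le_div_of_nonneg_left yS_nonneg h8 h4).trans ?_
          refine (div_le_div_of_nonneg_right h3 h8.le).trans (le_of_eq ?_)
          rw [hC]
          field_simp
      · exact hnn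
      · exact hnn
    unfold Win.av
    refine (Finset.sum_le_sum fun k hk => w.Q1.ex_mono fun ω hω => hpl k (Finset.mem_range.1 hk) ω hω).trans ?_
    have hex : ∑ k ∈ range T, w.Q1.ex (fun ω => ∑ d ∈ range (p.B + 1), ∑ a ∈ range (x.c.I.ha + 1),
        (if (good k (w.Z k ω) ∧ p.fp.k1 ≤ k ∧ a ∉ w.Vs p.fp k (w.Z k ω) ∧ a ∉ w.Xs p.fp k (w.Z k ω) ∧
          yn w F M' g d p.fp.k1 k (w.Z k ω) a) then (1 : ℝ) else 0) * C) =
        w.Q1.ex (fun ω => ∑ d ∈ range (p.B + 1), ∑ a ∈ range (x.c.I.ha + 1), (((range T).filter fun k =>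
          good k (w.Z k ω) ∧ p.fp.k1 ≤ k ∧ a ∉ w.Vs p.fp k (w.Z k ω) ∧ a ∉ w.Xs p.fp k (w.Z k ω) ∧
          yn w F M' g d p.fp.k1 k (w.Z k ω) a).card : ℝ) * C) := by
      rw [exS]
      refine w.Q1.ex_congr fun ω _ => ?_
      rw [Finset.sum_comm]
      refine Finset.sum_congr rfl fun d _ => ?_
      rw [Finset.sum_comm]
      refine Finset.sum_congr rfl fun a _ => ?_
      rw [← Finset.sum_mul, Finset.card_filter]
      push_cast
      rfl
    rw [hex]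
    set c1 : ℝ := (p.k1 : ℝ) * ((g + p.B + 1) * (2 * M')) with hc1
    have hc10 : 0 ≤ c1 := by rw [hc1]; positivity
    have hb : ∀ ω, ∑ d ∈ range (p.B + 1), ∑ a ∈ range (x.c.I.ha + 1), (((range T).filter fun k =>
          good k (w.Z k ω) ∧ p.fp.k1 ≤ k ∧ a ∉ w.Vs p.fp k (w.Z k ω) ∧ a ∉ w.Xs p.fp k (w.Z k ω) ∧
          yn w F M' g d p.fp.k1 k (w.Z k ω) a).card : ℝ) * C ≤ ((p.B : ℝ) + 1) * ((x.c.I.ha + 1) * (c1 * C)) := by
      intro ω
      have h1 : ∀ d ∈ range (p.B + 1), ∑ a ∈ range (x.c.I.ha + 1), (((range T).filter fun k =>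
          good k (w.Z k ω) ∧ p.fp.k1 ≤ k ∧ a ∉ w.Vs p.fp k (w.Z k ω) ∧ a ∉ w.Xs p.fp k (w.Z k ω) ∧
          yn w F M' g d p.fp.k1 k (w.Z k ω) a).card : ℝ) * C ≤ (x.c.I.ha + 1) * (c1 * C) := by
        intro d hd
        rw [Finset.mem_range] at hd
        have h2 : ∀ a ∈ range (x.c.I.ha + 1), (((range T).filter fun k =>
          good k (w.Z k ω) ∧ p.fp.k1 ≤ k ∧ a ∉ w.Vs p.fp k (w.Z k ω) ∧ a ∉ w.Xs p.fp k (w.Z k ω) ∧
          yn w F M' g d p.fp.k1 k (w.Z k ω) a).card : ℝ) * C ≤ c1 * C := by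
          intro a ha'
          rw [Finset.mem_range] at ha'
          refine mul_le_mul_of_nonneg_right ?_ hC0
          have h3 := card_yn w p.fp F M' (a := a) (g := g) (d := d) (by show a ≤ x.c.I.ha; omega) hg
            (by show d ≤ p.g; omega) T ω
          have h4 : p.fp.k1 * ((g + d + 1) * (2 * M')) ≤ p.k1 * ((g + p.B + 1) * (2 * M')) :=
            Nat.mul_le_mul_left _ (Nat.mul_le_mul_right _ (by omega))
          have h5 : ((p.k1 * ((g + p.B + 1) * (2 * M')) : ℕ) : ℝ) = c1 := by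
            rw [hc1]; push_cast; ring
          rw [← h5]
          exact_mod_cast h3.trans h4
        refine (Finset.sum_le_sum h2).trans (le_of_eq ?_)
        rw [Finset.sum_const, Finset.card_range, nsmul_eq_mul]
        push_cast
        ring
      refine (Finset.sum_le_sum h1).trans (le_of_eq ?_)
      rw [Finset.sum_const, Finset.card_range, nsmul_eq_mul]
      push_cast
      ring
    refine (w.Q1.ex_mono fun ω _ => hb ω).trans ?_
    rw [Law.ex_const]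
    have h1 : ((x.c.I.ha : ℝ) + 1) * C ≤ (p.B : ℝ) ^ 2 * L := by
      have h2 : ((x.c.I.ha : ℝ) + 1) ≤ x.c.I.h := by exact_mod_cast hh1
      have h3 : ((x.c.I.ha : ℝ) + 1) / x.c.I.h ≤ 1 := by rw [div_le_one hh0]; exact h2
      have h4 : ((x.c.I.ha : ℝ) + 1) * C = (p.B : ℝ) ^ 2 * L * (((x.c.I.ha : ℝ) + 1) / x.c.I.h) := by
        rw [hC]; field_simp
      rw [h4]
      exact mul_le_of_le_one_right (by positivity) h3
    calc ((p.B : ℝ) + 1) * ((x.c.I.ha + 1) * (c1 * C)) = ((p.B : ℝ) + 1) * c1 * ((x.c.I.ha + 1) * C) := by ring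
      _ ≤ ((p.B : ℝ) + 1) * c1 * ((p.B : ℝ) ^ 2 * L) := mul_le_mul_of_nonneg_left h1 (by positivity)
      _ = cO p.m p.B μ g M' p.k1 := by rw [hc1, hL]; rfl
  unfold Ctx.mean
  refine (Finset.sum_le_sum hwin).trans ?_
  rw [Finset.sum_const, nsmul_eq_mul]
  refine mul_le_mul_of_nonneg_right (by exact_mod_cast card_bs x) ?_
  unfold cO
  positivity

end row

end Vale.Agent.P106.U.H715.OldS
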