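import Vale.Agent.P106.U.H715.LowS

/-!
# P106 / U / H715 : row [S], young and low levels, one `d`, not divided (helper715)

* **`old_sum`** : the mean of the young part of `sS`;  **`low_sum`** : the mean of the part of the levels `≤ A0`.
-/

set_option autoImplicit false

namespace Vale.Agent.P106.U.H715.OldS

open Finset Vale.Agent.P127 Vale.Agent.P127.Stk Vale.Agent.P127.U Vale.Agent.P106.W
open Vale.Agent.P127.U.CellD (q2)
open Vale.Agent.P106.U Vale.Agent.P106.U.H449 Vale.Agent.P106.U.H565 Vale.Agent.P106.U.H339W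
open Vale.Agent.P106.U.H712.Fam (Win Vl Pl)
open Vale.Agent.P106.U.H712.Fam.Win (good)
open Vale.Agent.P106.U.S3 (Run Pf LTh LDk At' IdO F2b lv)
open Vale.Agent.P106.U.H61.Ext2 Vale.Agent.P106.U.H61.PS

variable {σ : S5.Cst} {cc : ℝ} {J M Md : ℕ} {p : H61.PS.Par} {X0 R0 h0 : ℕ} {Ω : Type} [Fintype Ω]
  (x : Ctx σ cc J M Md p X0 R0 h0 Ω)

open Classical in
/-- **the young part of `sS`**, one `d` -/
theorem old_sum (oo : Oo) (F : ℕ → ℕ) (M' g T : ℕ) {μ : ℕ} (o : Fin 7 → ℝ) {d : ℕ} (hg : g ≤ p.g) (hd : d ≤ p.g)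
    (hμ : μ ≤ p.B) (hr : 8 * μ ≤ x.c.I.rs) :
    x.mean oo T (fun w k z => if p.k1 ≤ k then
      yS (w.R k z) (w.nm k z) p.B (w.bS p.fp k) (w.Vs p.fp k z) (w.Xs p.fp k z) μ o d (yn w F M' g d p.k1 k z) else 0) ≤
      x.nB * ((x.c.I.ha + 1) * (((p.k1 : ℝ) * ((g + d + 1) * (2 * M'))) * (p.B * Real.log (H523.FewS.nFew p.m p.B μ)))) := by
  set L : ℝ := Real.log (H523.FewS.nFew p.m p.B μ) with hL
  have hL0 : 0 ≤ L := Real.log_natCast_nonneg _
  set C : ℝ := (p.B : ℝ) * L with hC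
  have hC0 : 0 ≤ C := by rw [hC]; positivity
  set c1 : ℝ := (p.k1 : ℝ) * ((g + d + 1) * (2 * M')) with hc1
  have hc10 : 0 ≤ c1 := by rw [hc1]; positivity
  have hwin : ∀ b0 ∈ x.bs, (x.win oo b0).av T (fun k z => if p.k1 ≤ k then
      yS ((x.win oo b0).R k z) ((x.win oo b0).nm k z) p.B ((x.win oo b0).bS p.fp k) ((x.win oo b0).Vs p.fp k z)
        ((x.win oo b0).Xs p.fp k z) μ o d (yn (x.win oo b0) F M' g d p.k1 k z) else 0) ≤ (x.c.I.ha + 1) * (c1 * C) := by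
    intro b0 hb0
    rw [x.mem_bs] at hb0
    set w := x.win oo b0 with hw
    have hpl : ∀ k < T, ∀ ω, 0 < x.Q1.w ω → (if good k (w.Z k ω) then (if p.k1 ≤ k then
      yS (w.R k (w.Z k ω)) (w.nm k (w.Z k ω)) p.B (w.bS p.fp k) (w.Vs p.fp k (w.Z k ω)) (w.Xs p.fp k (w.Z k ω)) μ o d
        (yn w F M' g d p.k1 k (w.Z k ω)) else 0) else 0) ≤
        ∑ a ∈ range (x.c.I.ha + 1), (if (good k (w.Z k ω) ∧ p.fp.k1 ≤ k ∧
          a ∉ w.Vs p.fp k (w.Z k ω) ∧ a ∉ w.Xs p.fp k (w.Z k ω) ∧ yn w F M' g d p.fp.k1 k (w.Z k ω) a) then (1 : ℝ) else 0) * C := by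
      intro k _ ω hω
      have hnn : 0 ≤ ∑ a ∈ range (x.c.I.ha + 1), (if (good k (w.Z k ω) ∧ p.fp.k1 ≤ k ∧
          a ∉ w.Vs p.fp k (w.Z k ω) ∧ a ∉ w.Xs p.fp k (w.Z k ω) ∧ yn w F M' g d p.fp.k1 k (w.Z k ω) a) then (1 : ℝ) else 0) * C :=
        Finset.sum_nonneg fun a _ => mul_nonneg (by split_ifs <;> norm_num) hC0
      split_ifs with h1 h2
      · have hz : 0 < w.Q1.pr (w.Z k) (w.Z k ω) := w.Q1.pr_pos _ hω
        have h3 : yS (w.R k (w.Z k ω)) (w.nm k (w.Z k ω)) p.B (w.bS p.fp k) (w.Vs p.fp k (w.Z k ω)) (w.Xs p.fp k (w.Z k ω)) μ o d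
            (yn w F M' g d p.k1 k (w.Z k ω)) ≤ (((range (x.c.I.ha + 1)).filter fun a => a ∉ w.Vs p.fp k (w.Z k ω) ∧
              a ∉ w.Xs p.fp k (w.Z k ω) ∧ yn w F M' g d p.k1 k (w.Z k ω) a).card : ℝ) * (p.B * L) := by
          rw [hL, ← x.em]
          exact yS_le w (x.ho oo b0) p.fp hz h1 (o := o) (d := d) (yn w F M' g d p.k1 k (w.Z k ω)) hμ x.eB hb0.2 hr
        rw [← Finset.sum_mul]
        have h6 : (((range (x.c.I.ha + 1)).filter fun a => a ∉ w.Vs p.fp k (w.Z k ω) ∧ a ∉ w.Xs p.fp k (w.Z k ω) ∧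
            yn w F M' g d p.k1 k (w.Z k ω) a).card : ℝ) = ∑ a ∈ range (x.c.I.ha + 1), (if (good k (w.Z k ω) ∧ p.fp.k1 ≤ k ∧
          a ∉ w.Vs p.fp k (w.Z k ω) ∧ a ∉ w.Xs p.fp k (w.Z k ω) ∧ yn w F M' g d p.fp.k1 k (w.Z k ω) a) then (1 : ℝ) else 0) := by
          rw [Finset.card_filter]
          push_cast
          refine Finset.sum_congr rfl fun a _ => ?_
          have h7 : (good k (w.Z k ω) ∧ p.fp.k1 ≤ k ∧ a ∉ w.Vs p.fp k (w.Z k ω) ∧ a ∉ w.Xs p.fp k (w.Z k ω) ∧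
              yn w F M' g d p.fp.k1 k (w.Z k ω) a) ↔ (a ∉ w.Vs p.fp k (w.Z k ω) ∧ a ∉ w.Xs p.fp k (w.Z k ω) ∧
              yn w F M' g d p.k1 k (w.Z k ω) a) := ⟨fun h => h.2.2, fun h => ⟨h1, h2, h⟩⟩
          rw [if_congr h7 rfl rfl]
        rw [← h6]
        exact h3
      · exact hnn
      · exact hnn
    unfold Win.av
    refine (Finset.sum_le_sum fun k hk => w.Q1.ex_mono fun ω hω => hpl k (Finset.mem_range.1 hk) ω hω).trans ?_
    rw [exS]
    have hb : ∀ ω, ∑ k ∈ range T, ∑ a ∈ range (x.c.I.ha + 1), (if (good k (w.Z k ω) ∧ p.fp.k1 ≤ k ∧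
          a ∉ w.Vs p.fp k (w.Z k ω) ∧ a ∉ w.Xs p.fp k (w.Z k ω) ∧ yn w F M' g d p.fp.k1 k (w.Z k ω) a) then (1 : ℝ) else 0) * C ≤
        (x.c.I.ha + 1) * (c1 * C) := by
      intro ω
      rw [Finset.sum_comm]
      have h2 : ∀ a ∈ range (x.c.I.ha + 1), ∑ k ∈ range T, (if (good k (w.Z k ω) ∧ p.fp.k1 ≤ k ∧
          a ∉ w.Vs p.fp k (w.Z k ω) ∧ a ∉ w.Xs p.fp k (w.Z k ω) ∧ yn w F M' g d p.fp.k1 k (w.Z k ω) a) then (1 : ℝ) else 0) * C ≤
          c1 * C := by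
        intro a ha'
        rw [Finset.mem_range] at ha'
        rw [← Finset.sum_mul]
        refine mul_le_mul_of_nonneg_right ?_ hC0
        have h3 := card_yn w p.fp F M' (a := a) (g := g) (d := d) (by show a ≤ x.c.I.ha; omega) hg hd T ω
        rw [Finset.card_filter] at h3
        have h5 : ((p.fp.k1 * ((g + d + 1) * (2 * M')) : ℕ) : ℝ) = c1 := by
          rw [hc1]
          push_cast
          rfl
        rw [← h5]
        exact_mod_cast h3
      refine (Finset.sum_le_sum h2).trans (le_of_eq ?_)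
      rw [Finset.sum_const, Finset.card_range, nsmul_eq_mul]
      push_cast
      ring
    refine (w.Q1.ex_mono fun ω _ => hb ω).trans ?_
    rw [Law.ex_const]
  unfold Ctx.mean
  refine (Finset.sum_le_sum hwin).trans ?_
  rw [Finset.sum_const, nsmul_eq_mul]
  exact mul_le_mul_of_nonneg_right (by exact_mod_cast card_bs x) (by positivity)

open Classical in
/-- **the part of `sS` at the low levels**, one `d` -/
theorem low_sum (oo : Oo) (A0 T : ℕ) (Y : ℕ → Prop) (hY : ∀ a, Y a → a ≤ A0) {μ : ℕ} (o : Fin 7 → ℝ) {d : ℕ} (hμ : μ ≤ p.B)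
    (hr : 8 * μ ≤ x.c.I.rs) :
    x.mean oo T (fun w k z => if p.k1 ≤ k then
      yS (w.R k z) (w.nm k z) p.B (w.bS p.fp k) (w.Vs p.fp k z) (w.Xs p.fp k z) μ o d Y else 0) ≤
      x.nB * (T * ((A0 + 1) * (p.B * Real.log (H523.FewS.nFew p.m p.B μ)))) := by
  set L : ℝ := Real.log (H523.FewS.nFew p.m p.B μ) with hL
  have hL0 : 0 ≤ L := Real.log_natCast_nonneg _
  set C : ℝ := ((A0 : ℝ) + 1) * (p.B * L) with hC
  have hC0 : 0 ≤ C := by rw [hC]; positivity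
  have hwin : ∀ b0 ∈ x.bs, (x.win oo b0).av T (fun k z => if p.k1 ≤ k then
      yS ((x.win oo b0).R k z) ((x.win oo b0).nm k z) p.B ((x.win oo b0).bS p.fp k) ((x.win oo b0).Vs p.fp k z)
        ((x.win oo b0).Xs p.fp k z) μ o d Y else 0) ≤ T * C := by
    intro b0 hb0
    rw [x.mem_bs] at hb0
    set w := x.win oo b0 with hw
    unfold Win.av
    have h1 : ∀ k ∈ range T, w.Q1.ex (fun ω => if good k (w.Z k ω) then (if p.k1 ≤ k then
      yS (w.R k (w.Z k ω)) (w.nm k (w.Z k ω)) p.B (w.bS p.fp k) (w.Vs p.fp k (w.Z k ω)) (w.Xs p.fp k (w.Z k ω)) μ o d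
        Y else 0) else 0) ≤ C := by
      intro k _
      have h2 : ∀ ω, 0 < w.Q1.w ω → (if good k (w.Z k ω) then (if p.k1 ≤ k then
        yS (w.R k (w.Z k ω)) (w.nm k (w.Z k ω)) p.B (w.bS p.fp k) (w.Vs p.fp k (w.Z k ω)) (w.Xs p.fp k (w.Z k ω)) μ o d
        Y else 0) else 0) ≤ C := by
        intro ω hω
        split_ifs with h1 h2
        · have hz : 0 < w.Q1.pr (w.Z k) (w.Z k ω) := w.Q1.pr_pos _ hω
          have h3 : yS (w.R k (w.Z k ω)) (w.nm k (w.Z k ω)) p.B (w.bS p.fp k) (w.Vs p.fp k (w.Z k ω)) (w.Xs p.fp k (w.Z k ω)) μ o d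
              Y ≤ (((range (x.c.I.ha + 1)).filter fun a => a ∉ w.Vs p.fp k (w.Z k ω) ∧
                a ∉ w.Xs p.fp k (w.Z k ω) ∧ Y a).card : ℝ) * (p.B * L) := by
            rw [hL, ← x.em]
            exact yS_le w (x.ho oo b0) p.fp hz h1 (o := o) (d := d) Y hμ x.eB hb0.2 hr
          have h6 : (((range (x.c.I.ha + 1)).filter fun a => a ∉ w.Vs p.fp k (w.Z k ω) ∧
                a ∉ w.Xs p.fp k (w.Z k ω) ∧ Y a).card : ℝ) ≤ A0 + 1 := by
            have h7 : ((range (x.c.I.ha + 1)).filter fun a => a ∉ w.Vs p.fp k (w.Z k ω) ∧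
                a ∉ w.Xs p.fp k (w.Z k ω) ∧ Y a).card ≤ A0 + 1 := by
              refine (Finset.card_le_card (t := range (A0 + 1)) fun a ha' => ?_).trans (Finset.card_range _).le
              rw [Finset.mem_filter] at ha'
              rw [Finset.mem_range]
              exact Nat.lt_succ_of_le (hY a ha'.2.2.2)
            exact_mod_cast h7
          exact h3.trans (mul_le_mul_of_nonneg_right h6 (by positivity))
        · exact hC0
        · exact hC0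
      refine (w.Q1.ex_mono h2).trans ?_
      rw [Law.ex_const]
    refine (Finset.sum_le_sum h1).trans (le_of_eq ?_)
    rw [Finset.sum_const, Finset.card_range, nsmul_eq_mul]
  unfold Ctx.mean
  refine (Finset.sum_le_sum hwin).trans ?_
  rw [Finset.sum_const, nsmul_eq_mul]
  exact mul_le_mul_of_nonneg_right (by exact_mod_cast card_bs x) (mul_nonneg (Nat.cast_nonneg _) hC0)

end Vale.Agent.P106.U.H715.OldS
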