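import Vale.Agent.P127.U.Mic.Colp

/-!
# P106 / U / H715 : [PAIR] the pair of caps (helper715, notes 18476, 18130 (3))

Collision probabilities `q (b) = colp P A (C b)` are nondecreasing in the cap `b`, bounded by `1`, and their increment
is the `L²` distance of the conditional laws of `A`.  (Mean maximal atoms do NOT suffice: they can stay constant while
`A` becomes known on most of the cells.)

* `dst P X Z Z'` : mean `L²` distance of the laws of `X` given `Z`, `Z'`.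
* `dst_fn` : exact formula for nested conditions;  `dst_le` : conditions nested up to `hc P Z' Z`.
* `pair` : `K + 1` nested cells: one consecutive pair with small mean distance (average over the steps).
* `dich` : known given the coarse cell, or weakly nonatomic given the fine cell, outside `(4 / c ^ 2) dst`.
* `kn_val` : the known value;  `wk_copies` : on `WK` two copies given the cell differ with probability `≥ c / 2`.
-/

set_option autoImplicit false

namespace Vale.Agent.P106.U.H715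

open Finset Vale.Agent.P127 Vale.Agent.P127.Stk Vale.Agent.P127.U.Pin Vale.Agent.P127.U.Mic

variable {Ω : Type} [Fintype Ω] {S T T' : Type*} (P : Law Ω)

/-- pointwise square distance of the conditional laws of `X` given `Z` and given `Z'` -/
noncomputable def dsq (X : Ω → S) (Z : Ω → T) (Z' : Ω → T') (ω : Ω) : ℝ :=
  ∑ x ∈ img X, (cq P X Z x (Z ω) - cq P X Z' x (Z' ω)) ^ 2

/-- mean square distance of the conditional laws of `X` given `Z` and given `Z'` -/
noncomputable def dst (X : Ω → S) (Z : Ω → T) (Z' : Ω → T') : ℝ := P.ex (dsq P X Z Z')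

theorem dsq_nonneg (X : Ω → S) (Z : Ω → T) (Z' : Ω → T') (ω : Ω) : 0 ≤ dsq P X Z Z' ω :=
  Finset.sum_nonneg fun _ _ => sq_nonneg _

theorem dst_nonneg (X : Ω → S) (Z : Ω → T) (Z' : Ω → T') : 0 ≤ dst P X Z Z' :=
  P.ex_nonneg fun _ _ => dsq_nonneg P X Z Z' _

theorem ex_sum {ι : Type*} (F : Finset ι) (f : ι → Ω → ℝ) :
    P.ex (fun ω => ∑ x ∈ F, f x ω) = ∑ x ∈ F, P.ex (f x) := by
  classical
  unfold Law.ex
  rw [Finset.sum_comm]
  exact Finset.sum_congr rfl fun ω _ => by rw [Finset.mul_sum]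

theorem dst_eq (X : Ω → S) (Z : Ω → T) (Z' : Ω → T') :
    dst P X Z Z' = ∑ x ∈ img X, P.ex (fun ω => (cq P X Z x (Z ω) - cq P X Z' x (Z' ω)) ^ 2) := by
  unfold dst dsq
  exact ex_sum P (img X) fun x ω => (cq P X Z x (Z ω) - cq P X Z' x (Z' ω)) ^ 2

theorem dst_symm (X : Ω → S) (Z : Ω → T) (Z' : Ω → T') : dst P X Z Z' = dst P X Z' Z := by
  rw [dst_eq, dst_eq]
  refine Finset.sum_congr rfl fun x _ => P.ex_congr fun ω _ => ?_
  ring

/-- **Pythagoras** -/
theorem dst_fn (X : Ω → S) {Z : Ω → T} {Z' : Ω → T'} (hZ : Fn P Z' Z) :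
    dst P X Z Z' = colp P X Z - colp P X Z' := by
  rw [dst_eq]
  have h1 := colp_eq_sum P X Z
  have h2 := colp_eq_sum P X Z'
  have h3 : colp P X Z' = ∑ x ∈ img X, P.ex (fun ω => cq P X Z x (Z ω) * cq P X Z' x (Z' ω)) := by
    unfold colp
    exact ex_own P X Z (fun x ω => cq P X Z' x (Z' ω)) fun x ω ω' p p' e => by
      rw [hZ ω ω' p p' e]
  have h6 : ∀ x, P.ex (fun ω => (cq P X Z x (Z ω) - cq P X Z' x (Z' ω)) ^ 2) =
      P.ex (fun ω => cq P X Z x (Z ω) * cq P X Z x (Z ω)) -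
      2 * P.ex (fun ω => cq P X Z x (Z ω) * cq P X Z' x (Z' ω)) +
      P.ex (fun ω => cq P X Z' x (Z' ω) * cq P X Z' x (Z' ω)) := by
    intro x
    rw [← P.ex_const_mul, ← P.ex_sub, ← P.ex_add]
    exact P.ex_congr fun ω _ => by ring
  simp only [h6]
  rw [Finset.sum_add_distrib, Finset.sum_sub_distrib, ← Finset.mul_sum, ← h1, ← h2, ← h3]
  ring

/-- a further condition which is nearly a function of the old one -/
theorem colp_pair_le (X : Ω → S) (Z : Ω → T) (Z' : Ω → T') :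
    colp P X (fun ω => (Z ω, Z' ω)) ≤ colp P X Z + (1 - colp P Z' Z) := by
  have h1 : P.ex (fun ω => cq P X (fun ω => (Z ω, Z' ω)) (X ω) (Z ω, Z' ω)) ≤
      P.ex (fun ω => cq P X Z (X ω) (Z ω) + (1 - cq P Z' Z (Z' ω) (Z ω))) := by
    refine P.ex_mono fun ω hω => ?_
    have hz := P.pr_pos Z hω
    have hzz := P.pr_pos (fun ω => (Z ω, Z' ω)) hω
    have e1 : P.pr (fun ω => (Z' ω, Z ω)) (Z' ω, Z ω) = P.pr (fun ω => (Z ω, Z' ω)) (Z ω, Z' ω) :=
      le_antisymm (pr_le_pr P fun ω' e => by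
        simp only [Prod.mk.injEq] at e ⊢
        exact ⟨e.2, e.1⟩) (pr_le_pr P fun ω' e => by
        simp only [Prod.mk.injEq] at e ⊢
        exact ⟨e.2, e.1⟩)
    have h2 : cq P X (fun ω => (Z ω, Z' ω)) (X ω) (Z ω, Z' ω) * cq P Z' Z (Z' ω) (Z ω) ≤
        cq P X Z (X ω) (Z ω) := by
      unfold cq
      rw [e1, div_mul_div_cancel₀ hzz.ne']
      refine div_le_div_of_nonneg_right ?_ hz.le
      exact pr_le_pr P fun ω' e => by
        simp only [Prod.mk.injEq] at e ⊢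
        exact ⟨e.1, e.2.1⟩
    have h3 := cq_le_one P X (fun ω => (Z ω, Z' ω)) (X ω) (Z ω, Z' ω)
    have h4 := cq_le_one P Z' Z (Z' ω) (Z ω)
    have h5 := cq_nonneg P X (fun ω => (Z ω, Z' ω)) (X ω) (Z ω, Z' ω)
    nlinarith
  rw [P.ex_add, P.ex_sub, P.ex_const] at h1
  exact h1

/-- the probability of a collision is at least `1 - H` -/
theorem one_sub_colp_le (X : Ω → S) (Z : Ω → T) : 1 - colp P X Z ≤ hc P X Z := by
  have h1 : P.ex (fun ω => 1 - cq P X Z (X ω) (Z ω)) ≤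
      P.ex (fun ω => -Real.log (P.pr (fun ω => (X ω, Z ω)) (X ω, Z ω)) - (-Real.log (P.pr Z (Z ω)))) := by
    refine P.ex_mono fun ω hω => ?_
    have hz := P.pr_pos Z hω
    have hx := P.pr_pos (fun ω => (X ω, Z ω)) hω
    have h2 := Real.log_le_sub_one_of_pos (div_pos hx hz)
    rw [Real.log_div hx.ne' hz.ne'] at h2
    unfold cq
    linarith
  rw [P.ex_sub, P.ex_const, P.ex_sub] at h1
  exact h1

/-- conditions which are nested up to `hc P Z' Z` -/
theorem dst_le (X : Ω → S) (Z : Ω → T) (Z' : Ω → T') :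
    dst P X Z Z' ≤ 2 * (colp P X Z - colp P X Z') + 4 * hc P Z' Z := by
  have h1 := dst_fn P X (Z := fun ω => (Z ω, Z' ω)) (Z' := Z) fun _ _ _ _ e => congrArg Prod.fst e
  have h2 := dst_fn P X (Z := fun ω => (Z ω, Z' ω)) (Z' := Z') fun _ _ _ _ e => congrArg Prod.snd e
  have h3 := colp_pair_le P X Z Z'
  have h4 := one_sub_colp_le P Z' Z
  have h5 : dst P X Z Z' ≤ 2 * dst P X (fun ω => (Z ω, Z' ω)) Z + 2 * dst P X (fun ω => (Z ω, Z' ω)) Z' := by
    rw [dst_eq, dst_eq, dst_eq, Finset.mul_sum, Finset.mul_sum, ← Finset.sum_add_distrib]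
    refine Finset.sum_le_sum fun x _ => ?_
    rw [← P.ex_const_mul, ← P.ex_const_mul, ← P.ex_add]
    refine P.ex_mono fun ω _ => ?_
    nlinarith [sq_nonneg ((cq P X (fun ω => (Z ω, Z' ω)) x (Z ω, Z' ω) - cq P X Z x (Z ω)) +
      (cq P X (fun ω => (Z ω, Z' ω)) x (Z ω, Z' ω) - cq P X Z' x (Z' ω)))]
  linarith

/-! ### the pair -/

/-- **one pair of consecutive caps with small mean distance** -/
theorem pair {ι : Type*} (I : Finset ι) (A : ι → Ω → S) (C : ι → ℕ → Ω → T) {K : ℕ} (hK : 0 < K) {ν : ℝ}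
    (hν : ∀ i ∈ I, ∀ k < K, hc P (C i k) (C i (k + 1)) ≤ ν) :
    ∃ k < K, ∑ i ∈ I, dst P (A i) (C i (k + 1)) (C i k) ≤ I.card * (2 / K + 4 * ν) := by
  by_contra hcon
  push Not at hcon
  have hK' : (0 : ℝ) < K := by exact_mod_cast hK
  have h1 : ∑ _k ∈ range K, ((I.card : ℝ) * (2 / K + 4 * ν)) <
      ∑ k ∈ range K, ∑ i ∈ I, dst P (A i) (C i (k + 1)) (C i k) := by
    refine Finset.sum_lt_sum_of_nonempty ⟨0, Finset.mem_range.2 hK⟩ fun k hk => ?_
    exact hcon k (Finset.mem_range.1 hk)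
  have h2 : ∑ k ∈ range K, ∑ i ∈ I, dst P (A i) (C i (k + 1)) (C i k) ≤
      ∑ i ∈ I, (2 + K * (4 * ν)) := by
    rw [Finset.sum_comm]
    refine Finset.sum_le_sum fun i hi => ?_
    have h3 : ∑ k ∈ range K, dst P (A i) (C i (k + 1)) (C i k) ≤
        ∑ k ∈ range K, (2 * (colp P (A i) (C i (k + 1)) - colp P (A i) (C i k)) + 4 * ν) := by
      refine Finset.sum_le_sum fun k hk => ?_
      have := dst_le P (A i) (C i (k + 1)) (C i k)
      have := hν i hi k (Finset.mem_range.1 hk)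
      linarith
    refine h3.trans ?_
    rw [Finset.sum_add_distrib, ← Finset.mul_sum, Finset.sum_range_sub (fun k => colp P (A i) (C i k)),
      Finset.sum_const, card_range, nsmul_eq_mul]
    have h4 := colp_le_one P (A i) (C i K)
    have h5 := colp_nonneg P (A i) (C i 0)
    linarith
  rw [Finset.sum_const, card_range, nsmul_eq_mul] at h1
  rw [Finset.sum_const, nsmul_eq_mul] at h2
  have h6 : (K : ℝ) * ((I.card : ℝ) * (2 / K + 4 * ν)) = I.card * (2 + K * (4 * ν)) := by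
    field_simp
  linarith

/-! ### the dichotomy -/

/-- `X` is known given the cell of `ω` -/
def KN (X : Ω → S) (Z : Ω → T) (c : ℝ) (ω : Ω) : Prop := ∃ x, 1 - c ≤ cq P X Z x (Z ω)

/-- all atoms of `X` given the cell of `ω` are `≤ 1 - c` -/
def WK (X : Ω → S) (Z : Ω → T) (c : ℝ) (ω : Ω) : Prop := ∀ x, cq P X Z x (Z ω) ≤ 1 - c

/-- outside the dichotomy the distance is large -/
theorem dsq_ge (X : Ω → S) (Z : Ω → T) (Z' : Ω → T') {c c' : ℝ} (hcc : c' ≤ c) {ω : Ω} (h1 : ¬ KN P X Z' c ω)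
    (h2 : ¬ WK P X Z c' ω) : (c - c') ^ 2 ≤ dsq P X Z Z' ω := by
  unfold KN at h1
  unfold WK at h2
  push Not at h1 h2
  obtain ⟨x, hx⟩ := h2
  have h3 := h1 x
  by_cases hxi : x ∈ img X
  · refine le_trans ?_ (Finset.single_le_sum (f := fun x => (cq P X Z x (Z ω) - cq P X Z' x (Z' ω)) ^ 2)
      (fun _ _ => sq_nonneg _) hxi)
    have h4 : c - c' ≤ cq P X Z x (Z ω) - cq P X Z' x (Z' ω) := by linarith
    exact pow_le_pow_left₀ (by linarith) h4 2
  · have e1 := cq_zero P X Z (Z ω) hxi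
    have e2 := cq_zero P X Z' (Z' ω) hxi
    rw [e1] at hx
    rw [e2] at h3
    linarith

/-- **the dichotomy**: known given the coarse cell, or weakly nonatomic given the fine cell -/
theorem dich (X : Ω → S) (Z : Ω → T) (Z' : Ω → T') {c c' : ℝ} (hcc : c' < c) :
    P.ex (fun ω => Law.ind (¬ KN P X Z' c ω ∧ ¬ WK P X Z c' ω)) ≤ dst P X Z Z' / (c - c') ^ 2 := by
  have hpos : 0 < (c - c') ^ 2 := by
    have : 0 < c - c' := by linarith
    positivity
  rw [le_div_iff₀ hpos, mul_comm, ← P.ex_const_mul]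
  unfold dst
  refine P.ex_mono fun ω _ => ?_
  by_cases h : ¬ KN P X Z' c ω ∧ ¬ WK P X Z c' ω
  · rw [Law.ind_of h, mul_one]
    exact dsq_ge P X Z Z' hcc.le h.1 h.2
  · rw [Law.ind_not h, mul_zero]
    exact dsq_nonneg P X Z Z' ω

/-- two conditions, the same atoms up to `ε`, outside probability `dst / ε ^ 2` -/
theorem close (X : Ω → S) (Z : Ω → T) (Z' : Ω → T') {ε : ℝ} (hε : 0 < ε) :
    P.ex (fun ω => Law.ind (¬ ∀ x, |cq P X Z x (Z ω) - cq P X Z' x (Z' ω)| ≤ ε)) ≤ dst P X Z Z' / ε ^ 2 := by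
  have hpos : 0 < ε ^ 2 := by positivity
  rw [le_div_iff₀ hpos, mul_comm, ← P.ex_const_mul]
  unfold dst
  refine P.ex_mono fun ω _ => ?_
  by_cases h : ∀ x, |cq P X Z x (Z ω) - cq P X Z' x (Z' ω)| ≤ ε
  · rw [Law.ind_not (p := ¬ ∀ x, |cq P X Z x (Z ω) - cq P X Z' x (Z' ω)| ≤ ε) (fun h' => h' h), mul_zero]
    exact dsq_nonneg P X Z Z' ω
  · rw [Law.ind_of h, mul_one]
    push Not at h
    obtain ⟨x, hx⟩ := h
    have hxi : x ∈ img X := by
      by_contra hxi
      rw [cq_zero P X Z (Z ω) hxi, cq_zero P X Z' (Z' ω) hxi, sub_zero, abs_zero] at hx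
      linarith
    refine le_trans ?_ (Finset.single_le_sum (f := fun x => (cq P X Z x (Z ω) - cq P X Z' x (Z' ω)) ^ 2)
      (fun _ _ => sq_nonneg _) hxi)
    rw [← sq_abs (cq P X Z x (Z ω) - cq P X Z' x (Z' ω))]
    exact pow_le_pow_left₀ hε.le hx.le 2

/-- the known value (function of the cell) -/
theorem kn_val [Nonempty S] (X : Ω → S) (Z : Ω → T) (c : ℝ) :
    ∃ g : T → S, (∀ ω, KN P X Z c ω → 1 - c ≤ cq P X Z (g (Z ω)) (Z ω)) ∧
      P.ex (fun ω => Law.ind (KN P X Z c ω ∧ X ω ≠ g (Z ω))) ≤ c * P.ex (fun ω => Law.ind (KN P X Z c ω)) := by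
  classical
  let g : T → S := fun z => if h : ∃ x, 1 - c ≤ cq P X Z x z then h.choose else Classical.arbitrary S
  have hg : ∀ ω, KN P X Z c ω → 1 - c ≤ cq P X Z (g (Z ω)) (Z ω) := by
    intro ω h
    have h' : ∃ x, 1 - c ≤ cq P X Z x (Z ω) := h
    show 1 - c ≤ cq P X Z (if h : ∃ x, 1 - c ≤ cq P X Z x (Z ω) then h.choose else Classical.arbitrary S) (Z ω)
    rw [dif_pos h']
    exact h'.choose_spec
  refine ⟨g, hg, ?_⟩
  rw [← ex_cond P Z (fun ω => Law.ind (KN P X Z c ω ∧ X ω ≠ g (Z ω))), ← P.ex_const_mul]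
  refine P.ex_mono fun ω hω => ?_
  have hz := P.pr_pos Z hω
  by_cases h : KN P X Z c ω
  · rw [Law.ind_of h, mul_one]
    have h1 : (P.cond Z (Z ω)).ex (fun ω' => Law.ind (KN P X Z c ω' ∧ X ω' ≠ g (Z ω'))) ≤
        (P.cond Z (Z ω)).ex (fun ω' => 1 - Law.ind (X ω' = g (Z ω))) := by
      refine Law.ex_mono _ fun ω' hω' => ?_
      have e := (cond_supp P Z hz hω').1
      by_cases h2 : X ω' = g (Z ω)
      · rw [Law.ind_of h2, Law.ind_not (p := KN P X Z c ω' ∧ X ω' ≠ g (Z ω')) (fun h3 => h3.2 (by rw [e]; exact h2))]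
        norm_num
      · rw [Law.ind_not h2, sub_zero]
        exact ind_le_one _
    have h2 : (P.cond Z (Z ω)).ex (fun ω' => 1 - Law.ind (X ω' = g (Z ω))) = 1 - cq P X Z (g (Z ω)) (Z ω) := by
      rw [Law.ex_sub, Law.ex_const, cq_eq_cond P X Z _ hz, Law.pr_eq_ex]
    have h3 := hg ω h
    linarith
  · rw [Law.ind_not h, mul_zero]
    have h1 : (P.cond Z (Z ω)).ex (fun ω' => Law.ind (KN P X Z c ω' ∧ X ω' ≠ g (Z ω'))) ≤
        (P.cond Z (Z ω)).ex (fun _ => (0 : ℝ)) := by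
      refine Law.ex_mono _ fun ω' hω' => ?_
      have e := (cond_supp P Z hz hω').1
      rw [Law.ind_not]
      intro h3
      apply h
      have h4 : ∃ x, 1 - c ≤ cq P X Z x (Z ω') := h3.1
      rw [e] at h4
      exact h4
    rw [Law.ex_const] at h1
    exact h1

/-- on `WK` two copies given the cell differ with probability `≥ c` -/
theorem wk_copies (X : Ω → S) (Z : Ω → T) {c : ℝ} {ω : Ω} (hω : 0 < P.w ω) (h : WK P X Z c ω) :
    (P.cond Z (Z ω)).ex (fun ω' => (P.cond Z (Z ω)).ex fun ω'' => Law.ind (X ω'' = X ω')) ≤ 1 - c := by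
  have hz := P.pr_pos Z hω
  have h1 : (P.cond Z (Z ω)).ex (fun ω' => (P.cond Z (Z ω)).ex fun ω'' => Law.ind (X ω'' = X ω')) ≤
      (P.cond Z (Z ω)).ex (fun _ => 1 - c) := by
    refine Law.ex_mono _ fun ω' _ => ?_
    rw [← Law.pr_eq_ex, ← cq_eq_cond P X Z _ hz]
    exact h (X ω')
  rwa [Law.ex_const] at h1

end Vale.Agent.P106.U.H715
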