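import Vale.Agent.P106.U.H715.Pair
import Vale.Agent.P106.U.H715.Base

/-!
# P106 / U / H715 : the pair of caps for a real variable (helper715)

`al : Ω → ℝ` (curvature / slope of the line), unit `r > 0`, `X = ⌊al / r⌋`.  Masses in the form of `H470.avg_atom` and
`H785.Dat.ms` : `ms P al Z g ρ z = P.ex (ind (Z = z ∧ |al - g| ≤ ρ))`.

* `Gd P al r Z Z' j δ ω` : `(2 j + 1) dsq < δ ^ 2` (pointwise closeness of the two conditional laws); `gd_not` : its complement has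
  probability `≤ (2 j + 1) / δ ^ 2 * dst`.
* `ms_tr` : on `Gd`, mass `≥ q` of the radius `j r` given `Z'` ⇒ mass `≥ q - δ` of the radius `(j + 1) r`, same centre, given `Z`.
* `gd_dich` : on `Gd`: not known given `Z'` ((1-c), radius `(j+1) r`) ⇒ weakly nonatomic given `Z` (radius `j r`, `1 - c + δ`).
* `pair_caps` : the pair `b < b'` out of a separated set `G` of caps: `φ ≤ ε` at both, mean `dst` small.
* `pair_gd` : the same with the conclusion `∑_i P (¬ Gd_i) ≤ (2 j + 1) / δ ^ 2 * |I| (2 / K + 4 ν)`.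
-/

set_option autoImplicit false

namespace Vale.Agent.P106.U.H715

open Finset Vale.Agent.P127 Vale.Agent.P127.Stk Vale.Agent.P127.U.Pin Vale.Agent.P127.U.Mic

variable {Ω : Type} [Fintype Ω] {S T T' : Type*} (P : Law Ω)

/-- square distance of the masses of finite sets -/
theorem mass_sq_le (X : Ω → S) (Z : Ω → T) (Z' : Ω → T') (F : Finset S) (ω : Ω) :
    (∑ x ∈ F, cq P X Z x (Z ω) - ∑ x ∈ F, cq P X Z' x (Z' ω)) ^ 2 ≤ F.card * dsq P X Z Z' ω := by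
  classical
  rw [← Finset.sum_sub_distrib]
  have h1 := sq_sum_le_card_mul_sum_sq (s := F) (f := fun x => cq P X Z x (Z ω) - cq P X Z' x (Z' ω))
  refine h1.trans (mul_le_mul_of_nonneg_left ?_ (Nat.cast_nonneg _))
  unfold dsq
  have h2 : ∑ x ∈ F, (cq P X Z x (Z ω) - cq P X Z' x (Z' ω)) ^ 2 =
      ∑ x ∈ F.filter fun x => x ∈ img X, (cq P X Z x (Z ω) - cq P X Z' x (Z' ω)) ^ 2 := by
    symm
    refine Finset.sum_subset (Finset.filter_subset _ _) fun x hx hx' => ?_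
    have hxi : x ∉ img X := fun h => hx' (Finset.mem_filter.2 ⟨hx, h⟩)
    rw [cq_zero P X Z (Z ω) hxi, cq_zero P X Z' (Z' ω) hxi]
    ring
  rw [h2]
  exact Finset.sum_le_sum_of_subset_of_nonneg (fun x hx => (Finset.mem_filter.1 hx).2) fun _ _ _ => sq_nonneg _

/-- mass of the event `al` near `g`, `Z = z` -/
noncomputable def ms (al : Ω → ℝ) (Z : Ω → T) (g ρ : ℝ) (z : T) : ℝ :=
  P.ex (fun ω => Law.ind (Z ω = z ∧ |al ω - g| ≤ ρ))

/-- the mass of the cells `k - j .. k + j` -/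
theorem ms_cells (al : Ω → ℝ) (Z : Ω → T) {r : ℝ} (hr : 0 < r) (g : ℝ) (j : ℕ) (z : T) :
    ms P al Z g (j * r) z ≤
        ∑ x ∈ Icc (⌊g / r⌋ - j) (⌊g / r⌋ + j), P.pr (fun ω => (⌊al ω / r⌋, Z ω)) (x, z) ∧
      ∑ x ∈ Icc (⌊g / r⌋ - j) (⌊g / r⌋ + j), P.pr (fun ω => (⌊al ω / r⌋, Z ω)) (x, z) ≤
        ms P al Z g ((j + 1) * r) z := by
  classical
  set F := Icc (⌊g / r⌋ - (j : ℤ)) (⌊g / r⌋ + j) with hF
  have e1 : ∑ x ∈ F, P.pr (fun ω => (⌊al ω / r⌋, Z ω)) (x, z) =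
      P.ex (fun ω => Law.ind (Z ω = z ∧ ⌊al ω / r⌋ ∈ F)) := by
    have : ∀ x ∈ F, P.pr (fun ω => (⌊al ω / r⌋, Z ω)) (x, z) =
        P.ex (fun ω => Law.ind ((⌊al ω / r⌋, Z ω) = (x, z))) := fun x _ => by rw [Law.pr_eq_ex]
    rw [Finset.sum_congr rfl this, ← ex_sum]
    refine P.ex_congr fun ω _ => ?_
    by_cases h : Z ω = z ∧ ⌊al ω / r⌋ ∈ F
    · rw [Law.ind_of h, Finset.sum_eq_single ⌊al ω / r⌋]
      · rw [Law.ind_of (p := (⌊al ω / r⌋, Z ω) = (⌊al ω / r⌋, z)) (by rw [h.1])]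
      · intro x _ hx
        rw [Law.ind_not]
        intro e
        exact hx (Prod.mk.inj e).1.symm
      · exact fun h' => absurd h.2 h'
    · rw [Law.ind_not h]
      refine Finset.sum_eq_zero fun x hx => ?_
      rw [Law.ind_not]
      intro e
      have e' := Prod.mk.inj e
      exact h ⟨e'.2, by rw [e'.1]; exact hx⟩
  have hj : (0 : ℝ) ≤ j := Nat.cast_nonneg _
  constructor
  · rw [e1]
    unfold ms
    refine P.ex_mono fun ω _ => ind_mono fun h => ⟨h.1, ?_⟩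
    have h2 := abs_le.1 h.2
    rw [hF, Finset.mem_Icc]
    have h3 : al ω / r ≤ g / r + j := by
      rw [div_add' _ _ _ hr.ne', div_le_div_iff_of_pos_right hr]
      linarith
    have h4 : g / r - j ≤ al ω / r := by
      rw [div_sub' hr.ne', div_le_div_iff_of_pos_right hr]
      linarith
    constructor
    · rw [Int.le_floor]
      push_cast
      have := Int.floor_le (g / r)
      linarith
    · have h5 : ⌊al ω / r⌋ ≤ ⌊g / r + (j : ℤ)⌋ := Int.floor_le_floor (by push_cast; exact h3)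
      rwa [Int.floor_add_intCast] at h5
  · rw [e1]
    unfold ms
    refine P.ex_mono fun ω _ => ind_mono fun h => ⟨h.1, ?_⟩
    have h2 := h.2
    rw [hF, Finset.mem_Icc] at h2
    have a1 := Int.floor_le (al ω / r)
    have a2 := Int.lt_floor_add_one (al ω / r)
    have b1 := Int.floor_le (g / r)
    have b2 := Int.lt_floor_add_one (g / r)
    have c1 : ((⌊g / r⌋ : ℝ) - j) ≤ ⌊al ω / r⌋ := by exact_mod_cast h2.1
    have c2 : (⌊al ω / r⌋ : ℝ) ≤ ⌊g / r⌋ + j := by exact_mod_cast h2.2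
    have d1 : al ω / r - g / r ≤ j + 1 := by linarith
    have d2 : -((j : ℝ) + 1) ≤ al ω / r - g / r := by linarith
    rw [← sub_div] at d1 d2
    rw [abs_le]
    constructor
    · rw [le_div_iff₀ hr] at d2
      linarith
    · rwa [div_le_iff₀ hr] at d1

/-- the two conditional laws are close at `ω` -/
def Gd (al : Ω → ℝ) (r : ℝ) (Z : Ω → T) (Z' : Ω → T') (j : ℕ) (δ : ℝ) (ω : Ω) : Prop :=
  (2 * (j : ℝ) + 1) * dsq P (fun ω => ⌊al ω / r⌋) Z Z' ω < δ ^ 2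

theorem gd_symm {al : Ω → ℝ} {r : ℝ} {Z : Ω → T} {Z' : Ω → T'} {j : ℕ} {δ : ℝ} {ω : Ω}
    (h : Gd P al r Z Z' j δ ω) : Gd P al r Z' Z j δ ω := by
  unfold Gd at h ⊢
  refine lt_of_eq_of_lt ?_ h
  congr 1
  unfold dsq
  exact Finset.sum_congr rfl fun x _ => by ring

theorem gd_not (al : Ω → ℝ) (r : ℝ) (Z : Ω → T) (Z' : Ω → T') (j : ℕ) {δ : ℝ} (hδ : 0 < δ) :
    P.ex (fun ω => Law.ind (¬ Gd P al r Z Z' j δ ω)) ≤
      (2 * (j : ℝ) + 1) / δ ^ 2 * dst P (fun ω => ⌊al ω / r⌋) Z Z' := by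
  have hpos : 0 < δ ^ 2 := by positivity
  unfold dst
  rw [← P.ex_const_mul]
  refine P.ex_mono fun ω _ => ?_
  by_cases h : Gd P al r Z Z' j δ ω
  · rw [Law.ind_not (p := ¬ Gd P al r Z Z' j δ ω) (fun h' => h' h)]
    exact mul_nonneg (by positivity) (dsq_nonneg _ _ _ _ _)
  · rw [Law.ind_of h, div_mul_eq_mul_div, le_div_iff₀ hpos, one_mul]
    exact not_lt.1 h

/-- **transfer of the mass** between the two conditions, at the same centre -/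
theorem ms_tr (al : Ω → ℝ) {r : ℝ} (hr : 0 < r) (Z : Ω → T) (Z' : Ω → T') {j : ℕ} {δ : ℝ} (hδ : 0 < δ) {ω : Ω}
    (hω : 0 < P.w ω) (h : Gd P al r Z Z' j δ ω) {q g : ℝ}
    (hq : q * P.pr Z' (Z' ω) ≤ ms P al Z' g (j * r) (Z' ω)) :
    (q - δ) * P.pr Z (Z ω) ≤ ms P al Z g ((j + 1) * r) (Z ω) := by
  classical
  have hz := P.pr_pos Z hω
  have hz' := P.pr_pos Z' hω
  set F := Icc (⌊g / r⌋ - (j : ℤ)) (⌊g / r⌋ + j) with hF
  have hcard : (F.card : ℝ) = 2 * j + 1 := by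
    have : F.card = 2 * j + 1 := by
      rw [hF, Int.card_Icc]
      omega
    rw [this]
    push_cast
    ring
  have h1 := mass_sq_le P (fun ω => ⌊al ω / r⌋) Z Z' F ω
  rw [hcard] at h1
  have h2 := (h1.trans_lt h)
  have h3 := (ms_cells P al Z' hr g j (Z' ω)).1
  have h4 := (ms_cells P al Z hr g j (Z ω)).2
  have e3 : ∑ x ∈ F, cq P (fun ω => ⌊al ω / r⌋) Z' x (Z' ω) =
      (∑ x ∈ F, P.pr (fun ω => (⌊al ω / r⌋, Z' ω)) (x, Z' ω)) / P.pr Z' (Z' ω) := by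
    rw [Finset.sum_div]; rfl
  have e4 : ∑ x ∈ F, cq P (fun ω => ⌊al ω / r⌋) Z x (Z ω) =
      (∑ x ∈ F, P.pr (fun ω => (⌊al ω / r⌋, Z ω)) (x, Z ω)) / P.pr Z (Z ω) := by
    rw [Finset.sum_div]; rfl
  have h5 : q ≤ ∑ x ∈ F, cq P (fun ω => ⌊al ω / r⌋) Z' x (Z' ω) := by
    rw [e3, le_div_iff₀ hz']
    exact hq.trans h3
  have h6 := abs_lt_of_sq_lt_sq h2 hδ.le
  have h7 := (abs_lt.1 h6).1
  have h8 : q - δ ≤ ∑ x ∈ F, cq P (fun ω => ⌊al ω / r⌋) Z x (Z ω) := by linarith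
  rw [e4, le_div_iff₀ hz] at h8
  exact h8.trans h4

/-- **the dichotomy**: not known given `Z'` ⇒ weakly nonatomic given `Z` -/
theorem gd_dich (al : Ω → ℝ) {r : ℝ} (hr : 0 < r) (Z : Ω → T) (Z' : Ω → T') {j : ℕ} {δ c : ℝ} (hδ : 0 < δ) {ω : Ω}
    (hω : 0 < P.w ω) (h : Gd P al r Z Z' j δ ω)
    (hn : ∀ g : ℝ, ms P al Z' g ((j + 1) * r) (Z' ω) < (1 - c) * P.pr Z' (Z' ω)) (g : ℝ) :
    ms P al Z g (j * r) (Z ω) < (1 - c + δ) * P.pr Z (Z ω) := by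
  by_contra hcon
  have h1 := ms_tr P al hr Z' Z hδ hω (gd_symm P h) (not_lt.1 hcon)
  have h2 := hn g
  have e : 1 - c + δ - δ = 1 - c := by ring
  rw [e] at h1
  linarith

/-! ### the pair out of a separated set of caps -/

/-- **the pair of caps** -/
theorem pair_caps {ι : Type*} (I : Finset ι) (A : ι → Ω → S) (C : ι → ℕ → Ω → T) {G : Finset ℕ} {b1 g K : ℕ} (hK : 0 < K)
    (hsep : ∀ b ∈ G, ∀ b' ∈ G, b < b' → 2 * (b - b1) + g ≤ b' - b1)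
    {φ : ℕ → ℝ} {Φ ε ν : ℝ} (hε : 0 < ε) (hφ : ∀ b ∈ G, 0 ≤ φ b) (hΦ : ∑ b ∈ G, φ b ≤ Φ)
    (hcard : (K : ℝ) + 1 + Φ / ε ≤ G.card)
    (hν : ∀ i ∈ I, ∀ b ∈ G, ∀ b' ∈ G, b < b' → hc P (C i b) (C i b') ≤ ν) :
    ∃ b ∈ G, ∃ b' ∈ G, b < b' ∧ 2 * (b - b1) + g ≤ b' - b1 ∧ φ b ≤ ε ∧ φ b' ≤ ε ∧
      ∑ i ∈ I, dst P (A i) (C i b') (C i b) ≤ I.card * (2 / K + 4 * ν) := by
  obtain ⟨b, hb, hlt, hsp⟩ := caps (K := K) hsep hε hφ hΦ hcard
  obtain ⟨k, hk, hd⟩ := pair P I A (fun i k => C i (b k)) hK (ν := ν) fun i hi k hk =>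
    hν i hi (b k) (hb k hk.le).1 (b (k + 1)) (hb (k + 1) hk).1 (hlt k hk)
  exact ⟨b k, (hb k hk.le).1, b (k + 1), (hb (k + 1) hk).1, hlt k hk, hsp k hk, (hb k hk.le).2, (hb (k + 1) hk).2, hd⟩

/-- **the pair of caps**, real variable, conclusion on the average over the steps -/
theorem pair_gd {ι : Type*} (I : Finset ι) (al : ι → Ω → ℝ) (r : ι → ℝ) (C : ι → ℕ → Ω → T) {G : Finset ℕ}
    {b1 g K : ℕ} (hK : 0 < K)
    (hsep : ∀ b ∈ G, ∀ b' ∈ G, b < b' → 2 * (b - b1) + g ≤ b' - b1)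
    {φ : ℕ → ℝ} {Φ ε ν δ : ℝ} (hε : 0 < ε) (hφ : ∀ b ∈ G, 0 ≤ φ b) (hΦ : ∑ b ∈ G, φ b ≤ Φ)
    (hcard : (K : ℝ) + 1 + Φ / ε ≤ G.card)
    (hν : ∀ i ∈ I, ∀ b ∈ G, ∀ b' ∈ G, b < b' → hc P (C i b) (C i b') ≤ ν) (hδ : 0 < δ) (j : ℕ) :
    ∃ b ∈ G, ∃ b' ∈ G, b < b' ∧ 2 * (b - b1) + g ≤ b' - b1 ∧ φ b ≤ ε ∧ φ b' ≤ ε ∧
      ∑ i ∈ I, P.ex (fun ω => Law.ind (¬ Gd P (al i) (r i) (C i b') (C i b) j δ ω)) ≤
        (2 * (j : ℝ) + 1) / δ ^ 2 * (I.card * (2 / K + 4 * ν)) := by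
  obtain ⟨b, hb, b', hb', h1, h2, h3, h4, h5⟩ := pair_caps P I (fun i ω => ⌊al i ω / r i⌋) C hK hsep hε hφ hΦ hcard hν
  refine ⟨b, hb, b', hb', h1, h2, h3, h4, ?_⟩
  calc ∑ i ∈ I, P.ex (fun ω => Law.ind (¬ Gd P (al i) (r i) (C i b') (C i b) j δ ω))
      ≤ ∑ i ∈ I, (2 * (j : ℝ) + 1) / δ ^ 2 * dst P (fun ω => ⌊al i ω / r i⌋) (C i b') (C i b) :=
        Finset.sum_le_sum fun i _ => gd_not P (al i) (r i) (C i b') (C i b) j hδ
    _ = (2 * (j : ℝ) + 1) / δ ^ 2 * ∑ i ∈ I, dst P (fun ω => ⌊al i ω / r i⌋) (C i b') (C i b) := by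
        rw [Finset.mul_sum]
    _ ≤ _ := mul_le_mul_of_nonneg_left h5 (by positivity)

end Vale.Agent.P106.U.H715
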