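import Vale.Agent.P106.U.H661.SNum
import Vale.Agent.P106.U.H711.LabW
import Vale.Agent.P106.U.H712.SLast
import Vale.Agent.P106.U.H715.PlOld
import Vale.Agent.P106.U.H715.UndS

/-!
# P106 / U / H715 : the window theorem of row [S] (helper715)

* `lS m B` : bound of the entropy of one label;  `aS` : the number `A` of `SWin`.
* **`sWin : SWin`**, **`rowS : RowS FS`**.
-/

set_option autoImplicit false

namespace Vale.Agent.P106.U.H715.SWinP

open Finset Vale.Agent.P127 Vale.Agent.P127.Stk Vale.Agent.P127.U Vale.Agent.P106.W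
open Vale.Agent.P127.U.CellD (q2)
open Vale.Agent.P106.U Vale.Agent.P106.U.H449 Vale.Agent.P106.U.H565
open Vale.Agent.P106.U.H712.Fam (Win Vl Pl)
open Vale.Agent.P106.U.H61.Ext2 Vale.Agent.P106.U.H61.PS
open Vale.Agent.P106.U.H661.SD Vale.Agent.P106.U.H661.SPair Vale.Agent.P106.U.H661.SPairB Vale.Agent.P106.U.H661.SLab
open Vale.Agent.P106.U.H523.FewS (nFew)
open Vale.Agent.P106.U.H712.SLast (SWin rowS_of)
open Vale.Agent.P106.U.H715.OldS

/-- bound of the entropy of one label -/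
noncomputable def lS (m B : ℕ) : ℝ := ∑ μ ∈ range (B + 1), Real.log (nFew m B μ)

theorem lS_nonneg (m B : ℕ) : 0 ≤ lS m B := Finset.sum_nonneg fun _ _ => Real.log_natCast_nonneg _

theorem le_lS {m B μ : ℕ} (h : μ ≤ B) : Real.log (nFew m B μ) ≤ lS m B :=
  Finset.single_le_sum (f := fun μ => Real.log (nFew m B μ)) (fun _ _ => Real.log_natCast_nonneg _)
    (Finset.mem_range.2 (by omega))

/-- the number -/
noncomputable def aS (m B g _D0 s L : ℕ) : ℝ :=
  2 * (((B : ℝ) + 1) * ((27 * L + 162 * L ^ 2) * lS m B)) + ((g : ℝ) + 1) * (B * lS m B) +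
    2 * ((g + B + 1) * (2 * (L * s + 2 * B + 2)) * (B * lS m B))

theorem aS_nonneg (m B g D0 s L : ℕ) : 0 ≤ aS m B g D0 s L := by
  have := lS_nonneg m B
  unfold aS
  positivity

/-- **the telescope part** -/
theorem tel_num {nB bs ha Tc k1 B g d L s LN LM H : ℝ} (h1 : 0 ≤ bs) (h2 : bs ≤ nB) (h3 : 0 ≤ ha) (h4 : ha + 1 ≤ 2 * H)
    (hT : 0 ≤ Tc) (hk : 1 ≤ k1) (hB : 0 ≤ B) (hg : 0 ≤ g) (hd0 : 0 ≤ d) (hd : d ≤ B) (hL : 0 ≤ L) (hs : 0 ≤ s)
    (hLN : 0 ≤ LN) (hLM : LN ≤ LM) (hH : k1 ≤ H) :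
    bs * (((ha + 1) * (B + 1)) * ((9 * L + 2 * (9 * L * (Tc + 9 * L)) / k1) * LN) + Tc * ((g + 1) * (B * LN))) +
      nB * ((ha + 1) * ((k1 * ((g + d + 1) * (2 * (L * s + 2 * B + 2)))) * (B * LN))) ≤
    nB * (H * ((2 * ((B + 1) * ((27 * L + 162 * L ^ 2) * LM)) + (g + 1) * (B * LM) +
      2 * ((g + B + 1) * (2 * (L * s + 2 * B + 2)) * (B * LM))) * (Tc / k1 + k1))) := by
  have hnB : 0 ≤ nB := h1.trans h2
  have hk0 : 0 < k1 := by linarith
  have hH0 : 0 ≤ H := by linarith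
  have hLM0 : 0 ≤ LM := hLN.trans hLM
  have hE : 9 * L + 2 * (9 * L * (Tc + 9 * L)) / k1 ≤ (27 * L + 162 * L ^ 2) * (Tc / k1 + k1) := by
    have e1 : 2 * (9 * L * (Tc + 9 * L)) / k1 = 18 * L * (Tc / k1) + 162 * L ^ 2 * (1 / k1) := by
      field_simp
      ring
    have e2 : 1 / k1 ≤ 1 := by rw [div_le_one hk0]; exact hk
    have e3 : 0 ≤ Tc / k1 := by positivity
    have e4 : 162 * L ^ 2 * (1 / k1) ≤ 162 * L ^ 2 * k1 := mul_le_mul_of_nonneg_left (e2.trans hk) (by positivity)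
    have e5 : 9 * L ≤ 9 * L * k1 := le_mul_of_one_le_right (by positivity) hk
    have e6 : 0 ≤ 9 * L * (Tc / k1) := by positivity
    have e7 : 0 ≤ 18 * L * k1 := by positivity
    have e8 : 0 ≤ 162 * L ^ 2 * (Tc / k1) := by positivity
    rw [e1]
    nlinarith
  have t1 : ((ha + 1) * (B + 1)) * ((9 * L + 2 * (9 * L * (Tc + 9 * L)) / k1) * LN) ≤
      H * ((2 * ((B + 1) * ((27 * L + 162 * L ^ 2) * LM))) * (Tc / k1 + k1)) := by
    have e0 : 0 ≤ 9 * L + 2 * (9 * L * (Tc + 9 * L)) / k1 := by positivity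
    calc ((ha + 1) * (B + 1)) * ((9 * L + 2 * (9 * L * (Tc + 9 * L)) / k1) * LN)
        ≤ ((2 * H) * (B + 1)) * (((27 * L + 162 * L ^ 2) * (Tc / k1 + k1)) * LM) :=
          mul_le_mul (mul_le_mul_of_nonneg_right h4 (by positivity)) (mul_le_mul hE hLM hLN (by positivity))
            (by positivity) (by positivity)
      _ = _ := by ring
  have t2 : Tc * ((g + 1) * (B * LN)) ≤ H * (((g + 1) * (B * LM)) * (Tc / k1 + k1)) := by
    have e1 : Tc = Tc / k1 * k1 := by field_simp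
    have e2 : Tc ≤ (Tc / k1) * H := by
      calc Tc = Tc / k1 * k1 := e1
        _ ≤ (Tc / k1) * H := mul_le_mul_of_nonneg_left hH (by positivity)
    have e3 : (Tc / k1) * H ≤ (Tc / k1 + k1) * H := mul_le_mul_of_nonneg_right (by linarith) hH0
    calc Tc * ((g + 1) * (B * LN)) ≤ ((Tc / k1 + k1) * H) * ((g + 1) * (B * LM)) :=
          mul_le_mul (e2.trans e3) (mul_le_mul_of_nonneg_left (mul_le_mul_of_nonneg_left hLM hB) (by positivity))
            (by positivity) (by positivity)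
      _ = _ := by ring
  have t3 : (ha + 1) * ((k1 * ((g + d + 1) * (2 * (L * s + 2 * B + 2)))) * (B * LN)) ≤
      H * ((2 * ((g + B + 1) * (2 * (L * s + 2 * B + 2)) * (B * LM))) * (Tc / k1 + k1)) := by
    have e3 : 0 ≤ Tc / k1 := by positivity
    have e4 : k1 ≤ Tc / k1 + k1 := by linarith
    calc (ha + 1) * ((k1 * ((g + d + 1) * (2 * (L * s + 2 * B + 2)))) * (B * LN))
        ≤ (2 * H) * (((Tc / k1 + k1) * ((g + B + 1) * (2 * (L * s + 2 * B + 2)))) * (B * LM)) :=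
          mul_le_mul h4 (mul_le_mul (mul_le_mul e4 (mul_le_mul_of_nonneg_right (by linarith) (by positivity)) (by positivity)
            (by positivity)) (mul_le_mul_of_nonneg_left hLM hB) (by positivity) (by positivity)) (by positivity) (by positivity)
      _ = _ := by ring
  calc bs * (((ha + 1) * (B + 1)) * ((9 * L + 2 * (9 * L * (Tc + 9 * L)) / k1) * LN) + Tc * ((g + 1) * (B * LN))) +
      nB * ((ha + 1) * ((k1 * ((g + d + 1) * (2 * (L * s + 2 * B + 2)))) * (B * LN)))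
      ≤ nB * (H * ((2 * ((B + 1) * ((27 * L + 162 * L ^ 2) * LM))) * (Tc / k1 + k1)) +
          H * (((g + 1) * (B * LM)) * (Tc / k1 + k1))) +
        nB * (H * ((2 * ((g + B + 1) * (2 * (L * s + 2 * B + 2)) * (B * LM))) * (Tc / k1 + k1))) := by
        refine add_le_add (mul_le_mul h2 (add_le_add t1 t2) ?_ hnB) (mul_le_mul_of_nonneg_left t3 hnB)
        have e0 : 0 ≤ 9 * L + 2 * (9 * L * (Tc + 9 * L)) / k1 := by positivity
        positivity
    _ = _ := by ring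

/-- **the window theorem of row [S]** -/
theorem sWin : SWin := by
  intro σ hσ K Cψ cc J M Md C
  have hK1 : 0 ≤ σ.K1 := hσ.bs.K10.le
  refine ⟨aS, 2 * cR (MF 6 648), 2 * (cC 648 * Real.sqrt (20 + 10 * σ.K1)), fun m B g D0 s L => aS_nonneg _ _ _ _ _ _, ?_, ?_, ?_⟩
  · have := cR_nonneg (MF 6 648)
    positivity
  · have := cC_nonneg 648
    positivity
  · have hh : Evp fun p _ _ h0 => p.m * (p.k1 + J + 4) ≤ h0 :=
      ⟨0, fun m _ => ⟨0, fun B _ => ⟨0, fun g _ => ⟨0, fun D0 _ s L _ _ _ => ⟨0, fun k1 _ => ⟨0, fun Tc _ =>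
        ⟨0, 0, m * (k1 + J + 4), fun X0 R0 h0 _ _ h => h⟩⟩⟩⟩⟩⟩⟩
    refine ((nu_evp σ cc J M Md).and hh).mono fun p X0 R0 h0 hp => ?_
    obtain ⟨⟨hk1, hβ, hT1, hBg, hNu⟩, hh0⟩ := hp
    intro Ω _ x oo μ hμ hmμ K' hK' o o' ho d hd
    have n := hNu Ω x
    have hm1 := n.hm
    have hmr : (0 : ℝ) < p.m := by exact_mod_cast hm1
    have hk1r : (1 : ℝ) ≤ p.k1 := by exact_mod_cast hk1
    have hhh : p.m * (p.k1 + J + 4) ≤ x.c.I.h := hh0.trans x.hh
    have hHr : (p.k1 : ℝ) + J + 4 ≤ (x.c.I.h : ℝ) / p.m := by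
      rw [le_div_iff₀ hmr]
      have : ((p.m * (p.k1 + J + 4) : ℕ) : ℝ) ≤ x.c.I.h := by exact_mod_cast hhh
      push_cast at this
      linarith
    have hJr : (0 : ℝ) ≤ J := Nat.cast_nonneg _
    have hkk : (0 : ℝ) ≤ p.k1 := Nat.cast_nonneg _
    have hha : (x.c.I.ha : ℝ) ≤ (x.c.I.h : ℝ) / p.m := by
      rw [le_div_iff₀ hmr]
      have h1 := x.good.hah
      rw [x.em] at h1
      have : ((p.m * x.c.I.ha : ℕ) : ℝ) ≤ x.c.I.h := by exact_mod_cast h1
      push_cast at this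
      linarith
    have hKK : (640 : ℝ) * 648 ^ 7 ≤ K' := by
      have h1 : (648 : ℝ) ≤ K := C.hK
      have h2 : ((100 : ℝ) * 648) ^ 20 ≤ (100 * K) ^ 20 := pow_le_pow_left₀ (by norm_num) (by linarith) 20
      have h3 : (640 : ℝ) * 648 ^ 7 ≤ (100 * 648) ^ 20 := by norm_num
      linarith
    have hrs : 8 * μ ≤ x.c.I.rs := by have := n.hrs; omega
    -- the old part
    have hold := s_old_of x n oo hμ o hk1 hβ (one_nFew p.m p.B μ) (fun b0 hb0 => PlOld.plO x n oo hμ hd o hb0)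
      (far_lab x oo μ o d p.Tc) (near_c x oo μ o hKK d p.Tc) (near_S x oo μ o hKK d p.Tc)
    -- the young part
    have hyng := old_sum x oo (H715.RegC.Fo x.c x.E1) (MM p) p.g p.Tc (μ := μ) o (d := d) le_rfl (hd.trans hBg) hμ hrs
    have hsp : x.mean oo p.Tc (fun w k z => if p.k1 ≤ k then
        sS (w.R k z) (w.nm k z) p.B (w.bS p.fp k) (w.Vs p.fp k z) (w.Xs p.fp k z) μ o d else 0) =
        x.mean oo p.Tc (fun w k z => if p.k1 ≤ k then yS (w.R k z) (w.nm k z) p.B (w.bS p.fp k) (w.Vs p.fp k z) (w.Xs p.fp k z)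
          μ o d (yn w (H715.RegC.Fo x.c x.E1) (MM p) p.g d p.k1 k z) else 0) +
        x.mean oo p.Tc (fun w k z => if p.k1 ≤ k then oS x w μ o d k z else 0) := by
      rw [← x.mean_add]
      congr 1
      funext w k z
      split_ifs
      · exact yS_split _ _ _ _ _ _ _ _ _ _
      · norm_num
    rw [hsp]
    -- near part
    have hNT : ((NT x.c : ℕ) : ℝ) ≤ (20 + 10 * σ.K1) * ((x.c.I.h : ℝ) / p.m) := by
      have h1 := H449.NLe.NT_le' (I := x.c.I) (K1 := σ.K1) (N0 := 4) x.good hK1 (by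
        rw [x.eJ, x.em]
        linarith)
      rw [x.em] at h1
      exact h1
    have hbs : (x.bs.card : ℝ) ≤ x.nB := by exact_mod_cast card_bs x
    have hsO : x.mean oo p.Tc (fun w k z => sOff (w.R k z) (w.nm k z) (w.bS p.fp k) μ K' o) ≤
        x.mean oo (2 * p.Tc) (fun w k z => sOff (w.R k z) (w.nm k z) (w.bS p.fp k) μ K' o) :=
      x.mean_range (fun _ _ _ => sOff_nonneg) (by omega)
    have hTr : (0 : ℝ) ≤ p.Tc := Nat.cast_nonneg _
    have hH0 : (0 : ℝ) ≤ (x.c.I.h : ℝ) / p.m := by positivity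
    have hnear : Real.sqrt (x.bs.card * p.Tc * (NT x.c : ℕ)) *
        Real.sqrt (x.mean oo p.Tc (fun w k z => sOff (w.R k z) (w.nm k z) (w.bS p.fp k) μ K' o)) ≤
        Real.sqrt (20 + 10 * σ.K1) * (Real.sqrt (x.nB * p.Tc * (x.c.I.h / p.m)) *
          Real.sqrt (x.mean oo (2 * p.Tc) (fun w k z => sOff (w.R k z) (w.nm k z) (w.bS p.fp k) μ K' o))) := by
      have e0 : (0 : ℝ) ≤ 20 + 10 * σ.K1 := by linarith
      have e1 : Real.sqrt (20 + 10 * σ.K1) * Real.sqrt (x.nB * p.Tc * (x.c.I.h / p.m)) =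
          Real.sqrt ((20 + 10 * σ.K1) * (x.nB * p.Tc * (x.c.I.h / p.m))) := (Real.sqrt_mul e0 _).symm
      have e2 : (x.bs.card : ℝ) * p.Tc * (NT x.c : ℕ) ≤ (20 + 10 * σ.K1) * (x.nB * p.Tc * (x.c.I.h / p.m)) := by
        calc (x.bs.card : ℝ) * p.Tc * (NT x.c : ℕ) ≤ (x.nB * p.Tc) * ((20 + 10 * σ.K1) * ((x.c.I.h : ℝ) / p.m)) :=
              mul_le_mul (mul_le_mul_of_nonneg_right hbs hTr) hNT (Nat.cast_nonneg _) (by positivity)
          _ = _ := by ring
      rw [← mul_assoc, e1]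
      exact mul_le_mul (Real.sqrt_le_sqrt e2) (Real.sqrt_le_sqrt hsO) (Real.sqrt_nonneg _) (Real.sqrt_nonneg _)
    -- the telescope part
    have htel := tel_num (nB := x.nB) (bs := x.bs.card) (ha := x.c.I.ha) (Tc := p.Tc) (k1 := p.k1) (B := p.B) (g := p.g)
      (d := d) (L := p.L) (s := p.s) (LN := Real.log (nFew p.m p.B μ)) (LM := lS p.m p.B) (H := (x.c.I.h : ℝ) / p.m)
      (Nat.cast_nonneg _) hbs (Nat.cast_nonneg _) (by linarith) hTr hk1r (Nat.cast_nonneg _) (Nat.cast_nonneg _)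
      (Nat.cast_nonneg _) (by exact_mod_cast hd) (Nat.cast_nonneg _) (Nat.cast_nonneg _) (Real.log_natCast_nonneg _)
      (le_lS hμ) (by linarith)
    have eβ : ((βr p : ℕ) : ℝ) = 9 * p.L := by unfold βr; push_cast; ring
    have eM : ((MM p : ℕ) : ℝ) = p.L * p.s + 2 * p.B + 2 := by unfold MM; push_cast; ring
    rw [eβ] at hold
    rw [eM] at hyng
    have hcC := cC_nonneg 648
    have hn2 := mul_le_mul_of_nonneg_left (add_le_add hnear hnear) hcC
    have hA : aS p.m p.B p.g p.D0 p.s p.L = 2 * (((p.B : ℝ) + 1) * ((27 * p.L + 162 * (p.L : ℝ) ^ 2) * lS p.m p.B)) +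
      ((p.g : ℝ) + 1) * (p.B * lS p.m p.B) +
      2 * ((p.g + p.B + 1) * (2 * (p.L * p.s + 2 * p.B + 2)) * (p.B * lS p.m p.B)) := rfl
    rw [hA]
    linarith

/-- **row [S]** -/
theorem rowS : RowS FS := rowS_of sWin

end Vale.Agent.P106.U.H715.SWinP
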