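import Vale.Agent.P106.U.H661.SLab
import Vale.Agent.P106.U.H711.NearS
import Vale.Agent.P106.U.H715.UndS
import Vale.Agent.P106.U.H824.SPlat

/-!
# P106 / U / H715 : row [S], the labels over the window (helper715)

* `Lb D a r d B` : the label `(a, r)`, `d` is valid: steps `J a - r < J (a + d)`.
* **`LDS w p μ o a r d`** : helper661's `LD` of the label: data of 712's window.
* `platW` : 824's `Plat` from a plateau of `KapS.kap`.
* **`hvalS`** : validity is constant on the plateaus (`a > g + 1`, `J + 3 ≤ g`).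
-/

set_option autoImplicit false

namespace Vale.Agent.P106.U.H715.ValS

open Finset Vale.Agent.P127 Vale.Agent.P127.Stk Vale.Agent.P127.U Vale.Agent.P106.W
open Vale.Agent.P127.U.CellD (q2)
open Vale.Agent.P106.U Vale.Agent.P106.U.H449 Vale.Agent.P106.U.H565 Vale.Agent.P106.U.H339W
open Vale.Agent.P106.U.H661 Vale.Agent.P106.U.H661.Age Vale.Agent.P106.U.H661.SLab
open Vale.Agent.P106.U.H661.FewX (Few)
open Vale.Agent.P106.U.H712.Fam (Win Vl Pl)
open Vale.Agent.P106.U.H712.Fam.Win (good)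
open Vale.Agent.P106.U.H823.PathP Vale.Agent.P106.U.H823.PathNum
open Vale.Agent.P106.U.H715.KapS Vale.Agent.P106.U.H715.OldS
open Vale.Agent.P106.U.S3 (Run Pf LTh LDk At' IdO F2b lv)
open Vale.Agent.P106.U.H101 (lc)
open Vale.Agent.P106.U.H61.Reg (beg)
open Vale.Agent.P106.U.SPlat (Plat SmD)

/-- **the label `(a, r)`, `d` is valid** -/
structure Lb (D : PN) (a r d B : ℕ) : Prop where
  bg : beg D.L a + r ≤ D.L.J a
  l1 : 1 ≤ D.L.J a - r
  ln : D.L.J a - r ≤ D.n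
  lt : D.L.J a - r < D.L.J (a + d)
  lB : D.L.J (a + d) ≤ D.L.J a - r + B
  lN : D.L.J (a + d) < D.N

section pn

variable {D D' : PN} {u a d r B : ℕ}

theorem beg_eq {a : ℕ} (ha : 1 ≤ a) (D : PN) : beg D.L a = D.L.J (a - 1) + 1 := by
  obtain ⟨b, rfl⟩ : ∃ b, a = b + 1 := ⟨a - 1, by omega⟩
  exact H61.Reg.beg_succ D.L b

theorem J_gap (D : PN) {u v : ℕ} (h : u ≤ v) : D.L.J u + (v - u) ≤ D.L.J v := by
  induction v, h using Nat.le_induction with
  | base => simp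
  | succ v h ih =>
    have := D.L.J_mono (Nat.lt_succ_self v)
    have h2 : D.L.J v < D.L.J (v + 1) := this
    omega

/-- **validity of a label on a plateau** -/
theorem Lb.tr (h : SmD D D') (hR : ∀ v, u ≤ v → v ≤ a + d → D.R v = D'.R v) (hu : u + D.J + 2 < a) (L : Lb D a r d B) :
    Lb D' a r d B := by
  have eJ : ∀ v, u ≤ v → v ≤ a + d → D.L.J v = D'.L.J v := fun v h1 h2 =>
    SPlat.J_plat (L := D.L) (L' := D'.L) h.LF (hR v h1 h2)
  have e0 := eJ a (by omega) (by omega)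
  have e1 := eJ (a + d) (by omega) le_rfl
  have e2 := eJ (a - 1) (by omega) (by omega)
  have hb : beg D.L a = D.L.J (a - 1) + 1 := beg_eq (by omega) D
  have hb' : beg D'.L a = D'.L.J (a - 1) + 1 := beg_eq (by omega) D'
  have g1 := J_gap D (show u ≤ a - 1 by omega)
  obtain ⟨l0, l1, l2, l3, l4, l5⟩ := L
  have hmono : D.L.J a ≤ D.L.J (a + d) := D.L.J_mono.monotone (Nat.le_add_right _ _)
  have n1 := SPlat.n_plat (D := D) (D' := D') (u := u) (a := a + d) h hR (x := D.L.J a - r) (by omega) (by omega)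
  have n2 := SPlat.N_plat (D := D) (D' := D') (u := u) (a := a + d) h hR (x := D.L.J (a + d) + 1) (by omega) (by omega)
  refine ⟨by rw [hb', ← e2, ← e0]; omega, by rw [← e0]; exact l1, ?_, by rw [← e0, ← e1]; exact l3,
    by rw [← e0, ← e1]; exact l4, ?_⟩
  · rw [← e0]
    exact n1.1 l2
  · rw [← e1]
    exact n2.1 l5

end pn

section win

variable {Ω : Type} [Fintype Ω] (w : Win Ω)

/-- **the data of the label** -/
noncomputable def LDS (p : H712.Fam.Par) (μ : ℕ) (o : Fin 7 → ℝ) (a r d : ℕ) : LD Ω Pl Vl where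
  val := fun k e => good k e ∧ Lb (w.cv k e).D a r d p.B
  In := fun k e _ => (w.cv k e).inp
  X := fun k e _ => (w.cv k e).pX (w.cv_m k e)
  hX := fun k e _ => (w.cv k e).pX_nest (w.cv_m k e)
  x := fun k e _ => (w.cv k e).D.L.J a - r
  i := fun k e _ => (w.cv k e).D.L.J (a + d)
  vv := fun k e _ => (w.cv k e).D.li
  bc := fun k => w.c.I.m * (w.b0 + k * w.s)
  bS := fun k => w.bS p k
  μ := μ
  o := o

variable {w} {Rm : ℕ} {p : H712.Fam.Par} {F : ℕ → ℕ} {M a g d r k β : ℕ} {ω : Ω}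

/-- **824's `Plat`** -/
theorem platW (hω : 0 < w.Q1.w ω) (hM : 1 ≤ M) (hβ : 1 ≤ β * w.s) (had : a + d ≤ w.c.I.ha)
    (hp : KapS.kap w.c w.hm w.cc w.Q1 w.s w.b0 w.bt F M a g d (k + β) ω =
      KapS.kap w.c w.hm w.cc w.Q1 w.s w.b0 w.bt F M a g d k ω) :
    Plat (w.c.c1 w.gd w.cn) w.hm w.cc (w.b0 + k * w.s) (w.b0 + (k + β) * w.s) (w.Z k) (w.Z (k + β)) ω (a - g) (a + d) where
  hw := fun _ _ _ _ e _ hv => w.Z_rt e le_rfl hv
  hw' := fun _ _ _ _ e _ hv => w.Z_rt e le_rfl hv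
  hn := fn_zW w.Q1 (Nat.le_add_right k β)
  hb := Nat.add_le_add_left (Nat.mul_le_mul_right _ (Nat.le_add_right k β)) _
  h0 := hω
  ha := had
  hR := fun v h1 h2 => ((kap_plateau w.cn hM hβ hp).1 v h1 h2 (h2.trans had)).1.symm

/-- the data of the two paths -/
theorem smW (k k' : ℕ) {ω : Ω} (hω : 0 < w.Q1.w ω) : SmD (w.cv k (w.Z k ω)).D (w.cv k' (w.Z k' ω)).D := by
  rw [w.cv_eq (w.Q1.pr_pos (w.Z k) hω), w.cv_eq (w.Q1.pr_pos (w.Z k') hω)]
  exact ⟨fun _ => rfl, rfl, rfl, rfl, rfl, rfl, rfl⟩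

/-- the precisions on the plateau -/
theorem rcW (hω : 0 < w.Q1.w ω) (hM : 1 ≤ M) (hβ : 1 ≤ β * w.s) (had : a + d ≤ w.c.I.ha)
    (hp : KapS.kap w.c w.hm w.cc w.Q1 w.s w.b0 w.bt F M a g d (k + β) ω =
      KapS.kap w.c w.hm w.cc w.Q1 w.s w.b0 w.bt F M a g d k ω) {v : ℕ} (h1 : a - g ≤ v) (h2 : v ≤ a + d) :
    (w.cv k (w.Z k ω)).D.R v = (w.cv (k + β) (w.Z (k + β) ω)).D.R v := by
  rw [w.cv_eq (w.Q1.pr_pos (w.Z k) hω), w.cv_eq (w.Q1.pr_pos (w.Z (k + β)) hω)]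
  exact (platW hω hM hβ had hp).DR v h1 h2

/-- the levels of a valid label -/
theorem Lb.le_ha {k : ℕ} {z : Vl} {B : ℕ} (L : Lb (w.cv k z).D a r d B) : a + d ≤ w.c.I.ha := by
  have h1 := H428.RunPt.li_le (w.cv k z) ((w.cv k z).D.L.J (a + d))
  have h2 := (w.cv k z).good.Ab1
  have h3 := (w.cv k z).good.Ab2
  rw [(w.cv k z).D.li_eq L.lN.le, (w.cv k z).D.L.lev_J] at h1
  rw [OldS.cv_I] at h1 h2 h3
  omega

/-- **validity is constant on the plateaus** -/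
theorem hvalS (hω : 0 < w.Q1.w ω) (hM : 1 ≤ M) (hβ : 1 ≤ β * w.s) (hJ : w.c.I.J + 3 ≤ g) (ha : g + 1 < a)
    (hp : KapS.kap w.c w.hm w.cc w.Q1 w.s w.b0 w.bt F M a g d (k + β) ω =
      KapS.kap w.c w.hm w.cc w.Q1 w.s w.b0 w.bt F M a g d k ω) :
    (good k (w.Z k ω) ∧ Lb (w.cv k (w.Z k ω)).D a r d p.B) ↔
      (good (k + β) (w.Z (k + β) ω) ∧ Lb (w.cv (k + β) (w.Z (k + β) ω)).D a r d p.B) := by
  have hDJ : ∀ k z, (w.cv k z).D.J = w.c.I.J := fun k z => by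
    show (w.cv k z).I.J = w.c.I.J
    rw [OldS.cv_I]
  have hbit : ∀ {k j : ℕ} (_ : j ≤ k), (w.Z k ω).1 j = w.bt w.Q1 w.b0 j ω := fun {k j} hj =>
    (G480.ZwC_bit (z := w.Z k ω) (show w.Z k ω = w.Z k ω from rfl) hj).symm
  constructor
  · rintro ⟨h1, h2⟩
    have had := h2.le_ha
    refine ⟨fun j hj => ?_, ?_⟩
    · rw [hbit hj]
      exact (kap_plateau w.cn hM hβ hp).2 (fun j hj => by rw [← hbit hj]; exact h1 j hj) j hj
    · exact h2.tr (smW k (k + β) hω) (fun v h3 h4 => rcW hω hM hβ had hp h3 h4) (by rw [hDJ]; omega)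
  · rintro ⟨h1, h2⟩
    have had := h2.le_ha
    refine ⟨w.Z_nest_iff (Nat.le_add_right k β) ω h1, ?_⟩
    exact h2.tr (smW (k + β) k hω) (fun v h3 h4 => (rcW hω hM hβ had hp h3 h4).symm) (by rw [hDJ]; omega)

end win

end Vale.Agent.P106.U.H715.ValS
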